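import Vale.Agent.P088.H5.I.Spec
import Vale.Agent.P088.H5.LS435
import Vale.Agent.P088.H5.MP849

/-!
# P088, Theorem I, block IE: the energies on the set where the pairs differ
-/

set_option linter.all false

open Bundle Manifold MeasureTheory Set Filter Topology
open scoped ContDiff Matrix

noncomputable section

namespace Vale.Agent.P088.EYM.O

open Vale.Agent.P088 Vale.Agent.P088.EYM

universe u

section

variable {n N : ℕ} [NeZero n] {M : Type u} [TopologicalSpace M]
  [ChartedSpace (EuclideanHalfSpace n) M] [IsManifold (𝓡∂ n) ∞ M]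

/-- The covariant derivative depends only on the germ. -/
theorem cov_germ (A : Connection (𝓡∂ n) N M) {u v : M → Fib N} {x : M} (h : u =ᶠ[𝓝 x] v)
    (X : TangentSpace (𝓡∂ n) x) : cov A u x X = cov A v x X := by
  have h1 : dmap (𝓡∂ n) u x X = dmap (𝓡∂ n) v x X := DFunLike.congr_fun h.mfderiv_eq X
  unfold cov
  rw [h1, h.self_of_nhds]

/-- The pairing depends only on the germs. -/
theorem pairing_germ (g : Metric (𝓡∂ n) M) (A : Connection (𝓡∂ n) N M) {u u' v v' : M → Fib N}
    {x : M} (h : u =ᶠ[𝓝 x] u') (h' : v =ᶠ[𝓝 x] v') :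
    pairing g A u v x = pairing g A u' v' x := by
  unfold pairing
  simp only [cov_germ A h, cov_germ A h']

variable [T2Space M] [CompactSpace M] [MeasurableSpace M] [BorelSpace M]

/-- The energy of `u` and `ξ u` and the energy density of `u`. -/
theorem ie_int (P : One n N M) {ξ : M → ℝ} (hξ : SmR n ξ)
    (hξ0 : ∀ x ∈ (𝓡∂ n).boundary M, ξ x = 0) {f u : M → Fib N} (hu : P.Harm f u) :
    ∫ x, ((pairing P.g P.A u (fun y => (ξ y : ℂ) • u y) x).re -
        ξ x * (pairing P.g P.A u u x).re) ∂P.μ =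
      -∫ x, ξ x * (pairing P.g P.A u u x).re ∂P.μ := by
  haveI : IsFiniteMeasure P.μ := ⟨measure_univ_lt_top P.hμ⟩
  have hint : ∀ {F : M → ℝ}, Continuous F → Integrable F P.μ := fun hF =>
    hF.integrable_of_hasCompactSupport (HasCompactSupport.of_compactSpace _)
  have hvs : SmS n (fun y => (ξ y : ℂ) • u y) := smS_mul hξ hu.smooth
  have h2 := hu.weak (fun y => (ξ y : ℂ) • u y) hvs (fun x hx => by simp [hξ0 x hx])
  have h2 := congrArg Complex.re h2
  unfold energy at h2
  rw [Complex.zero_re] at h2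
  have hc := continuous_pairing P.g P.A hu.smooth hvs
  have hi : Integrable (pairing P.g P.A u (fun y => (ξ y : ℂ) • u y)) P.μ :=
    hc.integrable_of_hasCompactSupport (HasCompactSupport.of_compactSpace _)
  have h3 : (∫ x, pairing P.g P.A u (fun y => (ξ y : ℂ) • u y) x ∂P.μ).re =
      ∫ x, (pairing P.g P.A u (fun y => (ξ y : ℂ) • u y) x).re ∂P.μ :=
    (integral_re (𝕜 := ℂ) hi).symm
  rw [h3] at h2
  have c1 : Continuous fun x => (pairing P.g P.A u (fun y => (ξ y : ℂ) • u y) x).re :=
    Complex.continuous_re.comp hc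
  have c2 : Continuous fun x => ξ x * (pairing P.g P.A u u x).re :=
    hξ.continuous.mul (Complex.continuous_re.comp
      (continuous_pairing P.g P.A hu.smooth hu.smooth))
  rw [integral_sub (hint c1) (hint c2), h2, zero_sub]

end

/-- (IE) -/
theorem iE : IE_statement.{u} := by
  intro n N _ M _ _ _ _ _ _ _ _ P Q Γ O ξ hΓ hO hOp hOΓ hS hag hξ hξs hξ1 u hu
  have hL := lS n N M P Q Γ O hΓ hO hOp hOΓ hS hag.conn hag.met u hu
  obtain ⟨f, hf, h1, h2⟩ := hu
  have hξ0 : ∀ x ∈ (𝓡∂ n).boundary M, ξ x = 0 := by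
    intro x hx
    refine image_eq_zero_of_notMem_tsupport fun h => ?_
    have h3 : x ∈ (𝓡∂ n).interior M := hξs h
    rw [← ModelWithCorners.compl_interior] at hx
    exact hx h3
  have e1 := ie_int P hξ hξ0 h1
  have e2 := ie_int Q hξ hξ0 h2
  have e3 : ∫ x, ((pairing Q.g Q.A u.2 (fun y => (ξ y : ℂ) • u.2 y) x).re -
        ξ x * (pairing Q.g Q.A u.2 u.2 x).re) ∂Q.μ =
      ∫ x, ((pairing P.g P.A u.1 (fun y => (ξ y : ℂ) • u.1 y) x).re -
        ξ x * (pairing P.g P.A u.1 u.1 x).re) ∂P.μ := by
    rw [withDensity_rho P Q, integral_withDensity_eq_integral_toReal_smul₀]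
    · refine integral_congr_ae (Eventually.of_forall fun x => ?_)
      simp only
      rw [ENNReal.toReal_ofReal (rho_pos P.g Q.g x).le, smul_eq_mul]
      by_cases hx : x ∈ O
      · have hg : gram P.g x x = gram Q.g x x := gram_of_inner fun a b => (hag.met x hx a b).symm
        have g1 : u.1 =ᶠ[𝓝 x] u.2 := Filter.eventuallyEq_of_mem (hO.mem_nhds hx) hL
        have g2 : (fun y => (ξ y : ℂ) • u.1 y) =ᶠ[𝓝 x] fun y => (ξ y : ℂ) • u.2 y := by
          filter_upwards [g1] with y hy
          rw [hy]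
        rw [rho_one hg, one_mul, pairing_germ P.g P.A g1 g2, pairing_germ P.g P.A g1 g1,
          pairing_congr hg (hag.conn x hx), pairing_congr hg (hag.conn x hx)]
      · have g0 := hξ1 x hx
        have g1 : (fun y => (ξ y : ℂ) • u.1 y) =ᶠ[𝓝 x] u.1 := by
          filter_upwards [g0] with y hy
          rw [hy]
          simp
        have g2 : (fun y => (ξ y : ℂ) • u.2 y) =ᶠ[𝓝 x] u.2 := by
          filter_upwards [g0] with y hy
          rw [hy]
          simp
        rw [pairing_germ P.g P.A (EventuallyEq.refl _ u.1) g1,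
          pairing_germ Q.g Q.A (EventuallyEq.refl _ u.2) g2, g0.self_of_nhds, one_mul, one_mul,
          sub_self, sub_self, mul_zero]
    · exact (continuous_rho P.g Q.g).measurable.ennreal_ofReal.aemeasurable
    · exact Eventually.of_forall fun x => ENNReal.ofReal_lt_top
  rw [e1, e2] at e3
  exact (neg_injective e3).symm

end Vale.Agent.P088.EYM.O

end
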