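import Vale.Agent.P088.H5.I.Spec
import Vale.Agent.P088.H5.LB2_332

/-!
# P088, Theorem I, block IL: `F ↦ E(F, T)` is bounded in `L²`
-/

set_option linter.all false

open Bundle Manifold MeasureTheory Set Filter Topology
open scoped ContDiff Matrix

noncomputable section

namespace Vale.Agent.P088.EYM.O

open Vale.Agent.P088 Vale.Agent.P088.EYM

universe u

namespace IL823

/-- Cauchy-Schwarz on a set of finite measure. -/
theorem cs {α : Type*} [MeasurableSpace α] {μ : Measure α} [IsFiniteMeasure μ] {f : α → ℝ}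
    (h1 : Integrable f μ) (h2 : Integrable (fun x => f x ^ 2) μ) :
    (∫ x, f x ∂μ) ^ 2 ≤ (μ.real univ + 1) * ∫ x, f x ^ 2 ∂μ := by
  set V := μ.real univ with hV
  have hV0 : 0 ≤ V := measureReal_nonneg
  set B := ∫ x, f x ∂μ with hB
  set A := ∫ x, f x ^ 2 ∂μ with hA
  set t := B / (V + 1) with ht
  have h3 : 0 ≤ ∫ x, (f x - t) ^ 2 ∂μ := integral_nonneg fun x => sq_nonneg _
  have h4 : ∫ x, (f x - t) ^ 2 ∂μ = A - 2 * t * B + t ^ 2 * V := by
    have e : (fun x => (f x - t) ^ 2) = fun x => f x ^ 2 - 2 * t * f x + t ^ 2 := by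
      funext x
      ring
    have i1 : Integrable (fun x => 2 * t * f x) μ := h1.const_mul (2 * t)
    have i2 : Integrable (fun x => f x ^ 2 - 2 * t * f x) μ := h2.sub i1
    rw [e, integral_add i2 (integrable_const _), integral_sub h2 i1, integral_const_mul,
      integral_const, smul_eq_mul, mul_comm (μ.real univ)]
  rw [h4] at h3
  have h5 : t * (V + 1) = B := by
    rw [ht]
    field_simp
  have h6 : 0 ≤ t ^ 2 := sq_nonneg t
  have h7 : (V + 1) * (A - 2 * t * B + t ^ 2 * V) = (V + 1) * A - 2 * B ^ 2 + t * B * V := by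
    have e1 : (V + 1) * (2 * t * B) = 2 * B ^ 2 := by
      calc (V + 1) * (2 * t * B) = 2 * (t * (V + 1)) * B := by ring
        _ = 2 * B ^ 2 := by rw [h5]; ring
    have e2 : (V + 1) * (t ^ 2 * V) = t * B * V := by
      calc (V + 1) * (t ^ 2 * V) = t * (t * (V + 1)) * V := by ring
        _ = _ := by rw [h5]
    calc (V + 1) * (A - 2 * t * B + t ^ 2 * V) =
        (V + 1) * A - (V + 1) * (2 * t * B) + (V + 1) * (t ^ 2 * V) := by ring
      _ = _ := by rw [e1, e2]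
  have h8 : 0 ≤ (V + 1) * (A - 2 * t * B + t ^ 2 * V) := mul_nonneg (by linarith) h3
  have h9 : t * B * V ≤ B ^ 2 := by
    have : B ^ 2 = t * B * V + t * B := by
      calc B ^ 2 = (t * (V + 1)) * B := by rw [h5]; ring
        _ = _ := by ring
    have h10 : 0 ≤ t * B := by
      have : t * B = t ^ 2 * (V + 1) := by
        calc t * B = t * (t * (V + 1)) := by rw [h5]
          _ = _ := by ring
      rw [this]
      positivity
    linarith
  rw [h7] at h8
  linarith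

section

variable {n N : ℕ} [NeZero n]

/-- Green's formula and Cauchy-Schwarz in a half ball. -/
theorem loc {L : LD n N} {z : E n} {R r : ℝ} (hR : 0 < R) (hrR : r < R) (hL : L.Ok (HB z R))
    (hh : ∀ x ∈ HB z R, L.h x = 1) {φ : E n → Fib N} (hφ : ContDiffOn ℝ 2 φ (HB z R))
    (hφ0 : ∀ y ∈ HB z R, y ∉ Metric.ball z r → φ y = 0) :
    ∃ C : ℝ, 0 ≤ C ∧ ∀ c : E n → Fib N, ContDiffOn ℝ 1 c (HB z R) →
      (∀ y ∈ HB z R, y 0 = 0 → c y = 0) →
      ‖En L (HB z R) c φ‖ ^ 2 ≤ C * ∫ y in Metric.closedBall z r ∩ Hs n, ‖c y‖ ^ 2 := by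
  set D := HB z R with hDdef
  have hD : RelOpen D := AGreen_rel_HB z R
  set K := Metric.closedBall z r ∩ Hs n with hK
  have hKc : IsCompact K := (isCompact_closedBall z r).inter_right isClosed_Hs
  have hKD : K ⊆ D := fun y hy => ⟨Metric.closedBall_subset_ball hrR hy.1, hy.2⟩
  have hLc : ContinuousOn (Lop L φ) D := AGreen_Lop_cont hD hL hφ
  obtain ⟨b, hb⟩ := hKc.exists_bound_of_continuousOn (hLc.mono hKD)
  have hKm : MeasurableSet K := hKc.isClosed.measurableSet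
  haveI : IsFiniteMeasure (volume.restrict K) := ⟨by
    rw [Measure.restrict_apply_univ]
    exact hKc.measure_lt_top⟩
  refine ⟨b ^ 2 * ((volume.restrict K).real univ + 1), by positivity, fun c hc hflat => ?_⟩
  have h1 : En L D c φ = (starRingEnd ℂ) (En L D φ c) := by
    unfold En
    rw [← integral_conj]
    exact setIntegral_congr_fun (CRungeC_meas hD)
      fun x hx => CRungeC_ed_symm (hL.g_pos x hx) (hh x hx)
  have h2 : En L D φ c = - ∫ x in D, inner ℂ (Lop L φ x) (L.h x (c x)) :=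
    aGreen n N L z R hR hL φ c hφ hc ⟨r, hrR, hφ0⟩ hflat
  have h3 : ∀ x ∈ D \ K, inner ℂ (Lop L φ x) (L.h x (c x)) = 0 := by
    intro x hx
    have hx2 : x ∉ Metric.closedBall z r := fun h => hx.2 ⟨h, hx.1.2⟩
    have h4 : Lop L φ x = 0 :=
      CRungeC_Lop_zero (CRungeC_relOpen_sdiff hD Metric.isClosed_closedBall)
        (fun y hy => hφ0 y hy.1 fun h => hy.2 (Metric.ball_subset_closedBall h)) ⟨hx.1, hx2⟩
    rw [h4, inner_zero_left]
  have h5 : ∫ x in D, (inner ℂ (Lop L φ x) (L.h x (c x)) : ℂ) =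
      ∫ x in K, (inner ℂ (Lop L φ x) (L.h x (c x)) : ℂ) :=
    setIntegral_eq_of_subset_of_forall_diff_eq_zero (CRungeC_meas hD) hKD h3
  have hc0 : ContinuousOn (fun y => ‖c y‖) K := (hc.continuousOn.mono hKD).norm
  have hci : Integrable (fun y => ‖c y‖) (volume.restrict K) := hc0.integrableOn_compact hKc
  have hci2 : Integrable (fun y => ‖c y‖ ^ 2) (volume.restrict K) :=
    (hc0.pow 2).integrableOn_compact hKc
  have h6 : ∀ x ∈ K, ‖(inner ℂ (Lop L φ x) (L.h x (c x)) : ℂ)‖ ≤ |b| * ‖c x‖ := by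
    intro x hx
    rw [hh x (hKD hx)]
    refine (norm_inner_le_norm _ _).trans ?_
    have h7 : ‖(1 : EndF N) (c x)‖ = ‖c x‖ := rfl
    rw [h7]
    exact mul_le_mul_of_nonneg_right ((hb x hx).trans (le_abs_self _)) (norm_nonneg _)
  have h7 : ‖∫ x in K, (inner ℂ (Lop L φ x) (L.h x (c x)) : ℂ)‖ ≤ |b| * ∫ x in K, ‖c x‖ := by
    rw [← integral_const_mul]
    exact norm_integral_le_of_norm_le (hci.const_mul |b|)
      ((ae_restrict_iff' hKm).2 (Eventually.of_forall h6))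
  rw [h1, RCLike.norm_conj, h2, norm_neg, h5]
  have h8 := cs hci hci2
  calc ‖∫ x in K, (inner ℂ (Lop L φ x) (L.h x (c x)) : ℂ)‖ ^ 2
      ≤ (|b| * ∫ x in K, ‖c x‖) ^ 2 := pow_le_pow_left₀ (norm_nonneg _) h7 2
    _ = b ^ 2 * (∫ x in K, ‖c x‖) ^ 2 := by rw [mul_pow, sq_abs]
    _ ≤ b ^ 2 * (((volume.restrict K).real univ + 1) * ∫ x in K, ‖c x‖ ^ 2) :=
        mul_le_mul_of_nonneg_left h8 (sq_nonneg b)
    _ = _ := by ring

end

section

variable {n N : ℕ} [NeZero n] {M : Type u} [TopologicalSpace M]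
  [ChartedSpace (EuclideanHalfSpace n) M] [IsManifold (𝓡∂ n) ∞ M] [T2Space M] [CompactSpace M]
  [ConnectedSpace M] [MeasurableSpace M] [BorelSpace M]

/-- The `L²` norm over a compact subset of a chart. -/
theorem l2 (P : One n N M) (p : M) {K : Set (E n)} (hK : IsCompact K) (hKt : K ⊆ tg n p) :
    ∃ C : ℝ, 0 ≤ C ∧ ∀ F : M → Fib N, SmS n F →
      ∫ y in K, ‖lu (𝓡∂ n) p F y‖ ^ 2 ≤ C * ∫ x, ‖F x‖ ^ 2 ∂P.μ := by
  obtain ⟨hfin, -, hint⟩ := TM.fInt n N M P
  haveI := hfin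
  obtain ⟨l1, l2, l3, l4⟩ := TM.fLoc n N M
  have hKm : MeasurableSet K := hK.isClosed.measurableSet
  obtain ⟨hmeas, hG⟩ := hint p K hKm hKt
  have hcont : ContinuousOn (fun y => Real.sqrt ((P.loc p).g y).det) K := by
    refine Real.continuous_sqrt.comp_continuousOn ?_
    have h1 : ∀ i j, ContinuousOn (fun y => (P.loc p).g y i j) K := fun i j =>
      (((l2 P p).g_smooth i j).continuousOn).mono hKt
    have h2 : ContinuousOn (fun y => (P.loc p).g y) K :=
      continuousOn_pi.2 fun i => continuousOn_pi.2 fun j => h1 i j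
    exact (Continuous.matrix_det continuous_id).comp_continuousOn h2
  have hpos : ∀ y ∈ K, 0 < Real.sqrt ((P.loc p).g y).det := fun y hy =>
    Real.sqrt_pos.2 ((l2 P p).g_pos y (hKt hy)).det_pos
  obtain ⟨m, hm, hmK⟩ : ∃ m : ℝ, 0 < m ∧ ∀ y ∈ K, m ≤ Real.sqrt ((P.loc p).g y).det := by
    rcases K.eq_empty_or_nonempty with he | hne
    · exact ⟨1, one_pos, fun y hy => absurd hy (by rw [he]; exact notMem_empty y)⟩
    · obtain ⟨y₀, hy₀, hmin⟩ := hK.exists_isMinOn hne hcont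
      exact ⟨_, hpos y₀ hy₀, fun y hy => hmin hy⟩
  refine ⟨m⁻¹, by positivity, fun F hF => ?_⟩
  have hFc : Continuous fun x => ‖F x‖ ^ 2 := (hF.continuous.norm).pow 2
  have hFi : Integrable (fun x => ‖F x‖ ^ 2) P.μ :=
    hFc.integrable_of_hasCompactSupport (HasCompactSupport.of_compactSpace _)
  have hGc : Continuous fun x => ((‖F x‖ ^ 2 : ℝ) : ℂ) := Complex.continuous_ofReal.comp hFc
  have h1 := hG (fun x => ((‖F x‖ ^ 2 : ℝ) : ℂ)) hGc.aestronglyMeasurable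
  have h2 : ∫ x in (xc n p).symm '' K, ‖F x‖ ^ 2 ∂P.μ =
      ∫ y in K, Real.sqrt ((P.loc p).g y).det * ‖lu (𝓡∂ n) p F y‖ ^ 2 := by
    have h3 := congrArg Complex.re h1
    rw [integral_complex_ofReal, Complex.ofReal_re] at h3
    rw [h3]
    have h4 : (fun y => ((Real.sqrt ((P.loc p).g y).det : ℝ) : ℂ) *
        ((‖F ((xc n p).symm y)‖ ^ 2 : ℝ) : ℂ)) = fun y =>
        ((Real.sqrt ((P.loc p).g y).det * ‖F ((xc n p).symm y)‖ ^ 2 : ℝ) : ℂ) := by
      funext y
      push_cast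
      ring
    rw [h4, integral_complex_ofReal, Complex.ofReal_re]
    rfl
  have hluc : ContinuousOn (fun y => ‖lu (𝓡∂ n) p F y‖ ^ 2) K :=
    (((l4 F hF p).continuousOn.mono hKt).norm).pow 2
  have h5 : m * ∫ y in K, ‖lu (𝓡∂ n) p F y‖ ^ 2 ≤
      ∫ y in K, Real.sqrt ((P.loc p).g y).det * ‖lu (𝓡∂ n) p F y‖ ^ 2 := by
    rw [← integral_const_mul]
    refine setIntegral_mono_on ((hluc.integrableOn_compact hK).const_mul m)
      ((hcont.mul hluc).integrableOn_compact hK) hKm fun y hy => ?_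
    exact mul_le_mul_of_nonneg_right (hmK y hy) (sq_nonneg _)
  have h6 : ∫ x in (xc n p).symm '' K, ‖F x‖ ^ 2 ∂P.μ ≤ ∫ x, ‖F x‖ ^ 2 ∂P.μ :=
    setIntegral_le_integral hFi (Eventually.of_forall fun x => sq_nonneg _)
  have h7 : m * ∫ y in K, ‖lu (𝓡∂ n) p F y‖ ^ 2 ≤ ∫ x, ‖F x‖ ^ 2 ∂P.μ :=
    h5.trans ((le_of_eq h2.symm).trans h6)
  rw [inv_mul_eq_div, le_div_iff₀ hm, mul_comm]
  exact h7

/-- The local statement on `M`. -/
theorem locM (P : One n N M) (p : M) {R r : ℝ} (hR : 0 < R) (hrR : r < R)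
    (hs : HB (xc n p p) R ⊆ tg n p) {S : M → Fib N} (hS : SmS n S)
    (hsupp : tsupport S ⊆ (xc n p).symm '' HB (xc n p p) r) :
    ∃ C : ℝ, 0 ≤ C ∧ ∀ F : M → Fib N, SmS n F → (∀ x ∈ (𝓡∂ n).boundary M, F x = 0) →
      ‖P.E F S‖ ^ 2 ≤ C * ∫ x, ‖F x‖ ^ 2 ∂P.μ := by
  obtain ⟨l1, l2', l3, l4⟩ := TM.fLoc n N M
  set z := xc n p p with hz
  have hD : RelOpen (HB z R) := AGreen_rel_HB z R
  have hrR' : HB z r ⊆ HB z R := inter_subset_inter_left _ (Metric.ball_subset_ball hrR.le)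
  have h0 : ∀ y ∈ HB z R, y ∉ Metric.ball z r → lu (𝓡∂ n) p S y = 0 := by
    intro y hy hyr
    have hyt : y ∈ tg n p := hs hy
    by_contra hne
    have h1 : (xc n p).symm y ∈ tsupport S := subset_tsupport S hne
    obtain ⟨y', hy', hyy⟩ := hsupp h1
    have h2 : y' = y := by
      have e1 : xc n p ((xc n p).symm y') = y' := (xc n p).right_inv (hs (hrR' hy'))
      have e2 : xc n p ((xc n p).symm y) = y := (xc n p).right_inv hyt
      rw [← e1, hyy, e2]
    exact hyr (h2 ▸ hy'.1)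
  have hSl : ContDiffOn ℝ 2 (lu (𝓡∂ n) p S) (HB z R) :=
    ((l4 S hS p).mono hs).of_le (by norm_cast)
  obtain ⟨C₁, hC₁, h1⟩ := loc hR hrR (CRungeC_ok_mono (l2' P p) hs) (fun y _ => rfl) hSl h0
  have hKc : IsCompact (Metric.closedBall z r ∩ Hs n) :=
    (isCompact_closedBall z r).inter_right isClosed_Hs
  have hKt : Metric.closedBall z r ∩ Hs n ⊆ tg n p :=
    fun y hy => hs ⟨Metric.closedBall_subset_ball hrR hy.1, hy.2⟩
  obtain ⟨C₂, hC₂, h2⟩ := l2 P p hKc hKt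
  refine ⟨C₁ * C₂, by positivity, fun F hF hF0 => ?_⟩
  have e1 : P.E F S = En (P.loc p) (HB z R) (lu (𝓡∂ n) p F) (lu (𝓡∂ n) p S) :=
    (TM.fEn n N M P p (HB z R) hD hs).1 F S hF hS (Or.inr (hsupp.trans (image_mono hrR')))
  rw [e1]
  have e2 := h1 (lu (𝓡∂ n) p F) (((l4 F hF p).mono hs).of_le (by exact_mod_cast le_top))
    (fun y hy hy0 => by
      refine hF0 _ ?_
      have hyt : y ∈ tg n p := hs hy
      refine (l3 p _ ((xc n p).map_target hyt)).2 ?_
      rw [(xc n p).right_inv hyt]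
      exact hy0)
  refine e2.trans ?_
  rw [mul_assoc]
  exact mul_le_mul_of_nonneg_left (h2 F hF) hC₁

end

end IL823

/-- (IL) -/
theorem iL : IL_statement.{u} := by
  intro n N _ M _ _ _ _ _ _ _ _ P T hT
  obtain ⟨l1, l2', l3, l4⟩ := TM.fLoc n N M
  -- the radii
  have hrad : ∀ p : M, ∃ R : ℝ, 0 < R ∧ HB (xc n p p) R ⊆ tg n p := by
    intro p
    obtain ⟨O, hO, hOt⟩ := l1 p
    have hp : xc n p p ∈ tg n p := (xc n p).map_source (mem_extChartAt_source p)
    rw [hOt] at hp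
    obtain ⟨R, hR, hRO⟩ := Metric.isOpen_iff.1 hO _ hp.1
    exact ⟨R, hR, fun y hy => by rw [hOt]; exact ⟨hRO hy.1, hy.2⟩⟩
  choose R hR hRt using hrad
  have hhalf : ∀ p, HB (xc n p p) (R p / 2) ⊆ HB (xc n p p) (R p) := fun p =>
    inter_subset_inter_left _ (Metric.ball_subset_ball (by linarith [hR p]))
  set U : M → Set M := fun p => (xc n p).symm '' HB (xc n p p) (R p / 2) with hU
  have hUo : ∀ p, IsOpen (U p) := fun p =>
    cRungeB_open TM.fLoc p (AGreen_rel_HB _ _) ((hhalf p).trans (hRt p))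
  have hUm : ∀ p, p ∈ U p := by
    intro p
    have hp : xc n p p ∈ tg n p := (xc n p).map_source (mem_extChartAt_source p)
    refine ⟨xc n p p, ⟨Metric.mem_ball_self (by linarith [hR p]), ?_⟩,
      (xc n p).left_inv (mem_extChartAt_source p)⟩
    obtain ⟨O, hO, hOt⟩ := l1 p
    rw [hOt] at hp
    exact hp.2
  obtain ⟨t, ht⟩ := isCompact_univ.elim_finite_subcover U hUo
    (fun x _ => mem_iUnion.2 ⟨x, hUm x⟩)
  obtain ⟨ρ, hρ⟩ := SmoothPartitionOfUnity.exists_isSubordinate (𝓡∂ n) isClosed_univ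
    (fun i : t => U i) (fun i => hUo i) (by
      intro x hx
      obtain ⟨i, hi, hx'⟩ := mem_iUnion₂.1 (ht hx)
      exact mem_iUnion.2 ⟨⟨i, hi⟩, hx'⟩)
  have hsum : ∀ x, ∑ i, ρ i x = 1 := by
    intro x
    have := ρ.sum_eq_one (mem_univ x)
    rwa [finsum_eq_sum_of_fintype] at this
  have hρs : ∀ i, SmS n (fun x => (ρ i x) • T x) := fun i => (ρ i).contMDiff.smul hT
  have hTe : T = ∑ i, fun x => (ρ i x) • T x := by
    funext x
    rw [Finset.sum_apply, ← Finset.sum_smul, hsum, one_smul]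
  have hlin : ∀ (w : M → Fib N) (hw : SmS n w) (f : t → M → Fib N)
      (_ : ∀ i, SmS n (f i)) (s : Finset t), SmS n (∑ i ∈ s, f i) ∧
      P.E w (∑ i ∈ s, f i) = ∑ i ∈ s, P.E w (f i) := by
    classical
    intro w hw f hf s
    obtain ⟨a1, a2, -⟩ := TM.fForm n N M P
    induction s using Finset.induction_on with
    | empty =>
      have z1 : SmS n (0 : M → Fib N) := contMDiff_const
      refine ⟨by simpa using z1, ?_⟩
      rw [Finset.sum_empty, Finset.sum_empty]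
      have := a2 0 w 0 hw z1
      rw [zero_smul, zero_mul] at this
      exact this
    | insert i s hi ih =>
      rw [Finset.sum_insert hi, Finset.sum_insert hi, a1 w (f i) _ hw (hf i) ih.1, ih.2]
      exact ⟨(hf i).add ih.1, rfl⟩
  have hloc : ∀ i : t, ∃ C : ℝ, 0 ≤ C ∧ ∀ F : M → Fib N, SmS n F →
      (∀ x ∈ (𝓡∂ n).boundary M, F x = 0) →
      ‖P.E F (fun x => (ρ i x) • T x)‖ ^ 2 ≤ C * ∫ x, ‖F x‖ ^ 2 ∂P.μ := fun i =>
    IL823.locM P (i : M) (hR i) (show R i / 2 < R i by linarith [hR (i : M)]) (hRt i) (hρs i)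
      ((tsupport_smul_subset_left _ _).trans (hρ i))
  choose C hC hCb using hloc
  refine ⟨(Fintype.card t : ℝ) * ∑ i, C i,
    mul_nonneg (Nat.cast_nonneg _) (Finset.sum_nonneg fun i _ => hC i), fun F hF hF0 => ?_⟩
  have e1 : P.E F T = ∑ i, P.E F (fun x => (ρ i x) • T x) := by
    conv_lhs => rw [hTe]
    exact (hlin F hF _ hρs Finset.univ).2
  rw [e1]
  have e2 : ‖∑ i, P.E F (fun x => (ρ i x) • T x)‖ ^ 2 ≤
      (∑ i, ‖P.E F (fun x => (ρ i x) • T x)‖) ^ 2 :=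
    pow_le_pow_left₀ (norm_nonneg _) (norm_sum_le _ _) 2
  have e3 : (∑ i, ‖P.E F (fun x => (ρ i x) • T x)‖) ^ 2 ≤
      (Fintype.card t : ℝ) * ∑ i, ‖P.E F (fun x => (ρ i x) • T x)‖ ^ 2 := by
    have := sq_sum_le_card_mul_sum_sq (s := Finset.univ)
      (f := fun i : t => ‖P.E F (fun x => (ρ i x) • T x)‖)
    simpa using this
  refine e2.trans (e3.trans ?_)
  rw [mul_assoc]
  refine mul_le_mul_of_nonneg_left ?_ (Nat.cast_nonneg _)
  rw [Finset.sum_mul]
  exact Finset.sum_le_sum fun i _ => hCb i F hF hF0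

end Vale.Agent.P088.EYM.O

end
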