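import Vale.Agent.P088.H5.I.Spec
import Vale.Agent.P088.H5.LS435
import Vale.Agent.P088.H5.M0849
import Vale.Agent.P088.H5.Calc

/-!
# P088, Theorem I: assembly
-/

set_option linter.all false

open Bundle Manifold MeasureTheory Set Filter Topology
open scoped ContDiff Matrix ENNReal

noncomputable section

namespace Vale.Agent.P088.EYM.O

open Vale.Agent.P088 Vale.Agent.P088.EYM

universe u

/-- (LA) the energy of `χ u`. -/
def LA435_statement : Prop :=
  ∀ (n N : ℕ) [NeZero n] (M : Type u) [TopologicalSpace M] [ChartedSpace (EuclideanHalfSpace n) M]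
    [IsManifold (𝓡∂ n) ∞ M] [T2Space M] [CompactSpace M] [ConnectedSpace M] [MeasurableSpace M]
    [BorelSpace M] (Q : One n N M) (χ : M → ℝ) (u : M → Fib N), SmR n χ → SmS n u →
    (Q.E (fun x => (χ x : ℂ) • u x) (fun x => (χ x : ℂ) • u x)).re =
      (Q.E u (fun x => ((χ x ^ 2 : ℝ) : ℂ) • u x)).re + ∫ x, gp Q.g χ χ x * ‖u x‖ ^ 2 ∂Q.μ

section

variable {n N : ℕ} [NeZero n] {M : Type u} [TopologicalSpace M]
  [ChartedSpace (EuclideanHalfSpace n) M] [IsManifold (𝓡∂ n) ∞ M]

/-- a smooth cut-off -/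
theorem ex_cut [T2Space M] [CompactSpace M] {K W : Set M} (hK : IsClosed K) (hW : IsOpen W)
    (hKW : K ⊆ W) : ∃ (χ : M → ℝ) (N : Set M), SmR n χ ∧ (∀ x, 0 ≤ χ x) ∧ (∀ x, χ x ≤ 1) ∧
      tsupport χ ⊆ W ∧ IsOpen N ∧ K ⊆ N ∧ N ⊆ W ∧ ∀ x ∈ N, χ x = 1 := by
  obtain ⟨N, hN, hKN, hNc⟩ := normal_exists_closure_subset hK hW hKW
  obtain ⟨W₁, hW₁, hNW₁, hW₁c⟩ := normal_exists_closure_subset isClosed_closure hW hNc
  obtain ⟨f, hf0, hf1, hf⟩ := exists_contMDiffMap_zero_one_of_isClosed (𝓡∂ n) (n := (⊤ : ℕ∞))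
    (s := W₁ᶜ) (t := closure N) hW₁.isClosed_compl isClosed_closure
    (disjoint_compl_left_iff_subset.2 hNW₁)
  refine ⟨f, N, f.contMDiff, fun x => (hf x).1, fun x => (hf x).2, ?_, hN, hKN,
    subset_closure.trans hNc, fun x hx => hf1 (subset_closure hx)⟩
  refine (closure_mono ?_).trans hW₁c
  intro x hx
  by_contra h
  exact hx (hf0 h)

theorem cov_congr' {A : Connection (𝓡∂ n) N M} {u v : M → Fib N} {x : M} (h : u =ᶠ[𝓝 x] v)
    (X : TangentSpace (𝓡∂ n) x) : cov A u x X = cov A v x X := by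
  unfold cov
  have h1 : dmap (𝓡∂ n) u x X = dmap (𝓡∂ n) v x X := DFunLike.congr_fun h.mfderiv_eq X
  rw [h1, h.self_of_nhds]

theorem cov_zero' (A : Connection (𝓡∂ n) N M) (x : M) (X : TangentSpace (𝓡∂ n) x) :
    cov A (fun _ => (0 : Fib N)) x X = 0 := (ParS.zero435 A x X)
  where
  ParS.zero435 (A : Connection (𝓡∂ n) N M) (x : M) (X : TangentSpace (𝓡∂ n) x) :
      cov A (fun _ => (0 : Fib N)) x X = 0 := by
    unfold cov
    rw [map_zero, add_zero]
    exact dmap_clm (0 : ℝ →L[ℝ] Fib N) (f := fun _ : M => (0 : ℝ)) mdifferentiableAt_const X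

theorem cov_sub' {A : Connection (𝓡∂ n) N M} {u v : M → Fib N} (hu : SmS n u) (hv : SmS n v)
    (x : M) (X : TangentSpace (𝓡∂ n) x) : cov A (u - v) x X = cov A u x X - cov A v x X := by
  have hvn : SmS n (fun y => (-ContinuousLinearMap.id ℝ (Fib N)) (v y)) :=
    (-ContinuousLinearMap.id ℝ (Fib N)).contMDiff.comp hv
  have e : (u - v) = fun y => u y + (-ContinuousLinearMap.id ℝ (Fib N)) (v y) := by
    funext y
    show u y - v y = u y + -(v y)
    rw [sub_eq_add_neg]
  unfold cov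
  have h1 : dmap (𝓡∂ n) (u - v) x X = dmap (𝓡∂ n) u x X - dmap (𝓡∂ n) v x X := by
    rw [e, dmap_add (hu.mdifferentiable (by simp) x) (hvn.mdifferentiable (by simp) x) X,
      dmap_clm (-ContinuousLinearMap.id ℝ (Fib N)) (hv.mdifferentiable (by simp) x) X]
    show _ + -_ = _
    rw [← sub_eq_add_neg]
    rfl
  have h2 : A.form x X ((u - v) x) = A.form x X (u x) - A.form x X (v x) := by
    show A.form x X (u x - v x) = _
    rw [map_sub]
  rw [h1, h2]
  abel

/-- `d_A (T - u) = - d_A u` where `T` is parallel. -/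
theorem pairing_sub_par (g : Metric (𝓡∂ n) M) {A : Connection (𝓡∂ n) N M} {T u : M → Fib N}
    (hT : SmS n T) (hu : SmS n u) {x : M}
    (h : ∀ X : TangentSpace (𝓡∂ n) x, cov A T x X = 0) :
    pairing g A (T - u) (T - u) x = pairing g A u u x := by
  unfold pairing
  simp only [cov_sub' hT hu, h, zero_sub, inner_neg_neg]

theorem gp_zero_of (g : Metric (𝓡∂ n) M) {a b : M → ℝ} {c : ℝ} {x : M}
    (h : a =ᶠ[𝓝 x] fun _ => c) : gp g a b x = 0 := by
  have h1 : ∀ i : Fin n, dd a x i = 0 := by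
    intro i
    unfold dd
    have h2 : dmap (𝓡∂ n) a x (coordVec (𝓡∂ n) x x i) =
        dmap (𝓡∂ n) (fun _ => c) x (coordVec (𝓡∂ n) x x i) := DFunLike.congr_fun h.mfderiv_eq _
    rw [h2]
    have h3 := dmap_clm (0 : ℝ →L[ℝ] ℝ) (f := fun _ : M => (0 : ℝ)) (x := x)
      mdifferentiableAt_const (coordVec (𝓡∂ n) x x i)
    have h4 : dmap (𝓡∂ n) (fun _ : M => c) x (coordVec (𝓡∂ n) x x i) =
        dmap (𝓡∂ n) (fun _ : M => (0 : ℝ)) x (coordVec (𝓡∂ n) x x i) := by
      unfold dmap
      rw [mfderiv_const, mfderiv_const]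
      rfl
    rw [h4]
    exact h3
  unfold gp
  simp only [h1, zero_mul, mul_zero, Finset.sum_const_zero]

theorem cut_smooth {χ : M → ℝ} {e : M → Fib N} {V : Set M} (hχ : SmR n χ) (hV : IsOpen V)
    (hs : tsupport χ ⊆ V) (he : ContMDiffOn (𝓡∂ n) 𝓘(ℝ, Fib N) ∞ e V) :
    SmS n (fun x => χ x • e x) := by
  refine contMDiff_of_tsupport fun x hx => ?_
  have hsub : Function.support (fun x => χ x • e x) ⊆ Function.support χ := by
    intro y hy h0
    refine hy ?_
    show χ y • e y = 0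
    rw [h0, zero_smul]
  have hxV : x ∈ V := hs (closure_mono hsub hx)
  exact (hχ.contMDiffAt).smul (he.contMDiffAt (hV.mem_nhds hxV))

variable [T2Space M] [CompactSpace M] [MeasurableSpace M] [BorelSpace M]

theorem int_rho (P Q : One n N M) (F : M → ℝ) :
    ∫ x, F x ∂Q.μ = ∫ x, rho P.g Q.g x * F x ∂P.μ := by
  have hrc := continuous_rho P.g Q.g
  rw [withDensity_rho P Q, integral_withDensity_eq_integral_toReal_smul₀]
  · refine integral_congr_ae (Eventually.of_forall fun x => ?_)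
    simp only [smul_eq_mul]
    rw [ENNReal.toReal_ofReal (rho_pos P.g Q.g x).le]
  · exact hrc.measurable.ennreal_ofReal.aemeasurable
  · exact Eventually.of_forall fun x => ENNReal.ofReal_lt_top

end

theorem i9 (hT : IT_statement.{u}) (hR : IR_statement.{u}) (hE : IE_statement.{u})
    (hS : IS_statement.{u}) (hLA : LA435_statement.{u}) : I9_statement.{u} := by
  intro n N _ M _ _ _ _ _ _ _ _ P Q Γ O V e hn hΓ hSD hO hOp hOΓ hbO hAg hV hKV he hep
  obtain ⟨hIo, -, hcl⟩ := TM.fConn n M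
  have hΓn : Γ.Nonempty := hOΓ.mono inter_subset_right
  have hbne : ((𝓡∂ n).boundary M).Nonempty := by
    obtain ⟨O', -, rfl⟩ := hΓ
    exact hΓn.mono inter_subset_right
  obtain ⟨⟨hPs, hQs, -⟩, -⟩ :=
    Vale.Agent.P088.EYM.cData TM.fUniq TM.fForm n N M P Q Γ hΓ hΓn hSD
  have hK : IsClosed Oᶜ := hO.isClosed_compl
  have hKI : Oᶜ ⊆ Mi n M := by
    intro x hx
    by_contra h
    have h1 : x ∈ (𝓡∂ n).boundary M := by
      rw [← ModelWithCorners.compl_interior]; exact h
    exact hx (hbO h1)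
  -- the target `T = χ e`
  obtain ⟨χ, N₁, hχ, -, -, hχs, hN₁, hKN₁, hN₁V, hχ1⟩ := ex_cut (n := n) hK (hV.inter hIo)
    (subset_inter hKV hKI)
  set T : M → Fib N := fun x => χ x • e x with hTdef
  have hTs : SmS n T := cut_smooth hχ hV (hχs.trans inter_subset_left) he
  have hT0 : ∀ x ∈ (𝓡∂ n).boundary M, T x = 0 := by
    intro x hx
    have h1 : x ∉ tsupport χ := by
      intro h2
      rw [← ModelWithCorners.compl_interior] at hx
      exact hx (hχs h2).2
    show χ x • e x = 0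
    rw [image_eq_zero_of_notMem_tsupport h1, zero_smul]
  have hTe : ∀ x ∈ N₁, T x = e x := fun x hx => by
    show χ x • e x = e x
    rw [hχ1 x hx, one_smul]
  have hTN : ∀ x ∈ N₁, ∀ X : TangentSpace (𝓡∂ n) x, cov P.A T x X = 0 := by
    intro x hx X
    have h1 : T =ᶠ[𝓝 x] e := by
      filter_upwards [hN₁.mem_nhds hx] with y hy
      exact hTe y hy
    rw [cov_congr' h1]
    exact hep x (hN₁V hx).1 X
  set S : Set M := tsupport χ \ N₁ with hSdef
  have hScl : IsClosed S := (isClosed_tsupport χ).sdiff hN₁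
  have hSO : S ⊆ O := by
    intro x hx
    by_contra h
    exact hx.2 (hKN₁ h)
  have hSI : S ⊆ Mi n M := fun x hx => (hχs hx.1).2
  have hTS : ∀ x ∉ S, ∀ X : TangentSpace (𝓡∂ n) x, cov P.A T x X = 0 := by
    intro x hx X
    by_cases h1 : x ∈ N₁
    · exact hTN x h1 X
    · have h2 : x ∉ tsupport χ := fun h3 => hx ⟨h3, h1⟩
      have h4 : T =ᶠ[𝓝 x] fun _ => (0 : Fib N) := by
        filter_upwards [notMem_tsupport_iff_eventuallyEq.1 h2] with y hy
        show χ y • e y = 0
        rw [hy]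
        exact zero_smul ℝ _
      rw [cov_congr' h4]
      exact cov_zero' P.A x X
  obtain ⟨p, hpO, hpΓ⟩ := hOΓ
  obtain ⟨O', hO', hO'p, hO'c, hSO', hpO'⟩ := hT n M O S p hO hOp hScl.isCompact hSO hpO
  have hO'O : O' ⊆ O := subset_closure.trans hO'c
  -- the approximations
  have hex : ∀ k : ℕ, ∃ u ∈ P.U Γ, (FK P O'ᶜ (T - u) (T - u)).re ≤ 1 / ((k : ℝ) + 1) := fun k =>
    hR n N M P Γ O' S T hΓ hPs hO' hO'p ⟨p, hpO', hpΓ⟩ hTs hT0 hScl.isCompact
      (subset_inter hSO' hSI) hTS _ (by positivity)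
  choose u huU hFK using hex
  choose f hf hu using fun k => huU k
  choose v hv using fun k => hQs (f k) (hf k)
  have hus : ∀ k, SmS n (u k) := fun k => (hu k).smooth
  have hvs : ∀ k, SmS n (v k) := fun k => (hv k).smooth
  have hPP : ∀ k, (u k, v k) ∈ PP P Q Γ := fun k => ⟨f k, hf k, hu k, hv k⟩
  have huv : ∀ k, ∀ x ∈ O, u k x = v k x := fun k =>
    lS n N M P Q Γ O hΓ hO hOp ⟨p, hpO, hpΓ⟩ hSD hAg.conn hAg.met (u k, v k) (hPP k)
  have hgr : ∀ x ∈ O, gram P.g x x = gram Q.g x x := fun x hx =>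
    gram_of_inner fun a b => (hAg.met x hx a b).symm
  have hfin : IsFiniteMeasure P.μ := ⟨measure_univ_lt_top P.hμ⟩
  have hfinQ : IsFiniteMeasure Q.μ := ⟨measure_univ_lt_top Q.hμ⟩
  -- the two parts of `FK`
  have hFE : ∀ k, ∫ x in O'ᶜ, (pairing P.g P.A (T - u k) (T - u k) x).re ∂P.μ ≤
      1 / ((k : ℝ) + 1) := by
    intro k
    have h0 : SmS n (T - u k) := hTs.sub (hus k)
    have h1 := hFK k
    rw [fk_re P O'ᶜ h0] at h1
    refine le_trans ?_ h1
    have c1 : Continuous fun x => (pairing P.g P.A (T - u k) (T - u k) x).re :=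
      Complex.continuous_re.comp (continuous_pairing P.g P.A h0 h0)
    have c2 : Continuous fun x => ‖(T - u k) x‖ ^ 2 := h0.continuous.norm.pow 2
    exact setIntegral_mono (integrable_of_continuous c1).integrableOn
      (integrable_of_continuous (c1.add c2)).integrableOn
      (fun x => le_add_of_nonneg_right (sq_nonneg _))
  have hFL : ∀ k, ∫ x in O'ᶜ, ‖T x - u k x‖ ^ 2 ∂P.μ ≤ 1 / ((k : ℝ) + 1) := by
    intro k
    have h0 : SmS n (T - u k) := hTs.sub (hus k)
    have h1 := hFK k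
    rw [fk_re P O'ᶜ h0] at h1
    refine le_trans ?_ h1
    have c1 : Continuous fun x => (pairing P.g P.A (T - u k) (T - u k) x).re :=
      Complex.continuous_re.comp (continuous_pairing P.g P.A h0 h0)
    have c2 : Continuous fun x => ‖(T - u k) x‖ ^ 2 := h0.continuous.norm.pow 2
    exact setIntegral_mono (integrable_of_continuous c2).integrableOn
      (integrable_of_continuous (c1.add c2)).integrableOn
      (fun x => le_add_of_nonneg_left (cForm_pairing_nonneg P.g P.A (T - u k) x))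
  -- the first cut-off
  have hKc : Oᶜ ⊆ N₁ ∩ (closure O')ᶜ := subset_inter hKN₁ (compl_subset_compl.2 hO'c)
  obtain ⟨ξ, N₃, hξ, hξ0, hξle, hξs, hN₃, hKN₃, hN₃W, hξ1⟩ := ex_cut (n := n) hK
    (hN₁.inter isClosed_closure.isOpen_compl) hKc
  have hN₃O' : N₃ ⊆ O'ᶜ := fun x hx h => (hN₃W hx).2 (subset_closure h)
  have hEn : ∀ k, ∫ x, ξ x * (pairing Q.g Q.A (v k) (v k) x).re ∂Q.μ ≤ 1 / ((k : ℝ) + 1) := by
    intro k
    have h1 := hE n N M P Q Γ O ξ hΓ hO hOp ⟨p, hpO, hpΓ⟩ hSD hAg hξ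
      (hξs.trans (inter_subset_left.trans (hN₁V.trans inter_subset_right)))
      (fun x hx => by
        filter_upwards [hN₃.mem_nhds (hKN₃ hx)] with y hy
        exact hξ1 y hy) (u k, v k) (hPP k)
    simp only at h1
    rw [← h1]
    refine le_trans ?_ (hFE k)
    have h0 : SmS n (T - u k) := hTs.sub (hus k)
    have c1 : Continuous fun x => (pairing P.g P.A (T - u k) (T - u k) x).re :=
      Complex.continuous_re.comp (continuous_pairing P.g P.A h0 h0)
    have c2 : Continuous fun x => (pairing P.g P.A (u k) (u k) x).re :=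
      Complex.continuous_re.comp (continuous_pairing P.g P.A (hus k) (hus k))
    rw [← integral_indicator hO'.isClosed_compl.measurableSet]
    refine integral_mono (integrable_of_continuous (hξ.continuous.mul c2))
      ((integrable_of_continuous c1).indicator hO'.isClosed_compl.measurableSet) fun x => ?_
    by_cases hx : x ∈ tsupport ξ
    · have hx1 : x ∈ O'ᶜ := fun h => (hξs hx).2 (subset_closure h)
      simp only [indicator_of_mem hx1]
      rw [pairing_sub_par P.g hTs (hus k) (hTN x (hξs hx).1)]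
      exact mul_le_of_le_one_left (cForm_pairing_nonneg P.g P.A (u k) x) (hξle x)
    · simp only
      rw [image_eq_zero_of_notMem_tsupport hx, zero_mul]
      exact indicator_nonneg (fun y _ => cForm_pairing_nonneg P.g P.A (T - u k) y) x
  -- the second cut-off
  obtain ⟨η, N₄, hη, hη0, hηle, hηs, hN₄, hKN₄, hN₄W, hη1⟩ := ex_cut (n := n) hK hN₃ hKN₃
  have hN₄I : N₄ ⊆ Mi n M := fun x hx => (hN₁V (hN₃W (hN₄W hx)).1).2
  have hηb : ∀ x ∈ (𝓡∂ n).boundary M, η x = 0 := by
    intro x hx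
    refine image_eq_zero_of_notMem_tsupport fun h => ?_
    rw [← ModelWithCorners.compl_interior] at hx
    exact hx (hN₁V (hN₃W (hηs h)).1).2
  have hgc : Continuous (gp Q.g η η) := gp_cont Q.g hη hη
  obtain ⟨B, hB⟩ : ∃ B : ℝ, ∀ x, gp Q.g η η x ≤ B := by
    obtain ⟨B, hB⟩ := isCompact_univ.exists_bound_of_continuousOn hgc.continuousOn
    exact ⟨B, fun x => (le_abs_self _).trans (hB x (mem_univ x))⟩
  have hB0 : 0 ≤ B := (gp_nonneg Q.g hη p).trans (hB p)
  obtain ⟨C, hC, hCp⟩ := TM.fPoinc n N M Q hbne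
  have hL2 : ∀ k l, ∫ x in N₄, ‖v k x - v l x‖ ^ 2 ∂Q.μ ≤
      C * (B * (2 * (1 / ((k : ℝ) + 1)) + 2 * (1 / ((l : ℝ) + 1)))) := by
    intro k l
    set z : M → Fib N := v k - v l with hz
    have hzs : SmS n z := (hvs k).sub (hvs l)
    have hzh : Q.Harm ((1 : ℂ) • f k + (-1 : ℂ) • f l) z := by
      have h1 := (TM.fUniq n N M Q hbne).2.1 (f k) (f l) (v k) (v l) 1 (-1) (hv k) (hv l)
      have h2 : (1 : ℂ) • v k + (-1 : ℂ) • v l = z := by
        rw [one_smul, neg_one_smul, hz, sub_eq_add_neg]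
      rwa [h2] at h1
    have hηz : SmS n (fun x => (η x : ℂ) • z x) := by
      have h1 : SmS n (fun x => η x • z x) := ContMDiff.smul hη hzs
      refine h1.congr fun x => ?_
      exact Complex.coe_smul (η x) (z x)
    have hη2z : SmS n (fun x => ((η x ^ 2 : ℝ) : ℂ) • z x) := by
      have h0 : SmR n (fun x => η x ^ 2) := (hη.mul hη).congr fun x => pow_two _
      have h1 : SmS n (fun x => η x ^ 2 • z x) := ContMDiff.smul h0 hzs
      refine h1.congr fun x => ?_
      exact Complex.coe_smul (η x ^ 2) (z x)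
    have e1 := hLA n N M Q η z hη hzs
    have e2 : Q.E z (fun x => ((η x ^ 2 : ℝ) : ℂ) • z x) = 0 := hzh.weak _ hη2z fun x hx => by
      rw [hηb x hx]
      simp
    rw [e2, Complex.zero_re, zero_add] at e1
    have e3 := hCp _ hηz fun x hx => by
      rw [hηb x hx]
      simp
    rw [e1] at e3
    have c1 : Continuous fun x => ‖(η x : ℂ) • z x‖ ^ 2 := hηz.continuous.norm.pow 2
    have e4 : ∫ x in N₄, ‖v k x - v l x‖ ^ 2 ∂Q.μ ≤ ∫ x, ‖(η x : ℂ) • z x‖ ^ 2 ∂Q.μ := by
      have h1 : ∫ x in N₄, ‖v k x - v l x‖ ^ 2 ∂Q.μ = ∫ x in N₄, ‖(η x : ℂ) • z x‖ ^ 2 ∂Q.μ := by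
        refine setIntegral_congr_fun hN₄.measurableSet fun x hx => ?_
        show ‖v k x - v l x‖ ^ 2 = ‖(η x : ℂ) • z x‖ ^ 2
        rw [hη1 x hx, Complex.ofReal_one, one_smul]
        rfl
      rw [h1]
      exact setIntegral_le_integral (integrable_of_continuous c1)
        (Eventually.of_forall fun x => sq_nonneg _)
    refine e4.trans (e3.trans (mul_le_mul_of_nonneg_left ?_ hC.le))
    rw [int_rho P Q]
    have c2 : Continuous fun x => ‖u k x - u l x‖ ^ 2 :=
      ((hus k).continuous.sub (hus l).continuous).norm.pow 2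
    have c3 : Continuous fun x => ‖T x - u k x‖ ^ 2 :=
      (hTs.continuous.sub (hus k).continuous).norm.pow 2
    have c4 : Continuous fun x => ‖T x - u l x‖ ^ 2 :=
      (hTs.continuous.sub (hus l).continuous).norm.pow 2
    have e5 : ∫ x, rho P.g Q.g x * (gp Q.g η η x * ‖z x‖ ^ 2) ∂P.μ ≤
        ∫ x in O'ᶜ, B * (2 * ‖T x - u k x‖ ^ 2 + 2 * ‖T x - u l x‖ ^ 2) ∂P.μ := by
      have c5 : Continuous fun x => B * (2 * ‖T x - u k x‖ ^ 2 + 2 * ‖T x - u l x‖ ^ 2) :=
        continuous_const.mul ((continuous_const.mul c3).add (continuous_const.mul c4))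
      rw [← integral_indicator hO'.isClosed_compl.measurableSet]
      refine integral_mono (integrable_of_continuous
        ((continuous_rho P.g Q.g).mul (hgc.mul (hzs.continuous.norm.pow 2))))
        ((integrable_of_continuous c5).indicator hO'.isClosed_compl.measurableSet) fun x => ?_
      have hnn : 0 ≤ (O'ᶜ).indicator (fun x => B * (2 * ‖T x - u k x‖ ^ 2 +
          2 * ‖T x - u l x‖ ^ 2)) x := indicator_nonneg (fun y _ => by positivity) x
      by_cases hxO : x ∈ O
      · by_cases hxt : x ∈ tsupport η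
        · have hx1 : x ∈ O'ᶜ := hN₃O' (hηs hxt)
          simp only [indicator_of_mem hx1]
          rw [rho_one (hgr x hxO), one_mul]
          have h2 : z x = u k x - u l x := by
            show v k x - v l x = _
            rw [huv k x hxO, huv l x hxO]
          rw [h2]
          refine mul_le_mul (hB x) ?_ (sq_nonneg _) hB0
          have h3 : ‖u k x - u l x‖ ≤ ‖T x - u k x‖ + ‖T x - u l x‖ := by
            have h4 : u k x - u l x = (T x - u l x) - (T x - u k x) := by abel
            rw [h4]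
            exact (norm_sub_le _ _).trans (add_comm _ _).le
          have h5 := pow_le_pow_left₀ (norm_nonneg _) h3 2
          nlinarith [sq_nonneg (‖T x - u k x‖ - ‖T x - u l x‖)]
        · have h2 : gp Q.g η η x = 0 :=
            gp_zero_of Q.g (c := 0) (notMem_tsupport_iff_eventuallyEq.1 hxt)
          simp only [h2, zero_mul, mul_zero]
          exact hnn
      · have h2 : gp Q.g η η x = 0 := gp_zero_of Q.g (c := 1) (by
          filter_upwards [hN₄.mem_nhds (hKN₄ hxO)] with y hy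
          exact hη1 y hy)
        simp only [h2, zero_mul, mul_zero]
        exact hnn
    refine e5.trans ?_
    rw [integral_const_mul, integral_add ((integrable_of_continuous c3).integrableOn.const_mul 2)
      ((integrable_of_continuous c4).integrableOn.const_mul 2), integral_const_mul,
      integral_const_mul]
    refine mul_le_mul_of_nonneg_left ?_ hB0
    have := hFL k
    have := hFL l
    linarith
  have hlim0 : Tendsto (fun k : ℕ => 1 / ((k : ℝ) + 1)) atTop (𝓝 0) :=
    tendsto_one_div_add_atTop_nhds_zero_nat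
  have hcau : ∀ ε > 0, ∃ k₀, ∀ k ≥ k₀, ∀ l ≥ k₀, ∫ x in N₄, ‖v k x - v l x‖ ^ 2 ∂Q.μ ≤ ε := by
    intro ε hε
    have h1 : Tendsto (fun k : ℕ => C * (B * (4 * (1 / ((k : ℝ) + 1))))) atTop (𝓝 0) := by
      have := ((hlim0.const_mul 4).const_mul B).const_mul C
      simpa using this
    obtain ⟨k₀, hk₀⟩ := eventually_atTop.1 (h1.eventually (ge_mem_nhds hε))
    refine ⟨k₀, fun k hk l hl => (hL2 k l).trans ?_⟩
    refine le_trans ?_ (hk₀ k₀ le_rfl)
    refine mul_le_mul_of_nonneg_left (mul_le_mul_of_nonneg_left ?_ hB0) hC.le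
    have h2 : (1 : ℝ) / ((k : ℝ) + 1) ≤ 1 / ((k₀ : ℝ) + 1) := by
      have : (k₀ : ℝ) ≤ k := by exact_mod_cast hk
      gcongr
    have h3 : (1 : ℝ) / ((l : ℝ) + 1) ≤ 1 / ((k₀ : ℝ) + 1) := by
      have : (k₀ : ℝ) ≤ l := by exact_mod_cast hl
      gcongr
    linarith
  have hen0 : Tendsto (fun k => ∫ x in N₄, (pairing Q.g Q.A (v k) (v k) x).re ∂Q.μ) atTop
      (𝓝 0) := by
    refine squeeze_zero (fun k => integral_nonneg fun x => cForm_pairing_nonneg Q.g Q.A (v k) x)
      (fun k => ?_) hlim0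
    refine le_trans ?_ (hEn k)
    have c1 : Continuous fun x => (pairing Q.g Q.A (v k) (v k) x).re :=
      Complex.continuous_re.comp (continuous_pairing Q.g Q.A (hvs k) (hvs k))
    rw [← integral_indicator hN₄.measurableSet]
    refine integral_mono ((integrable_of_continuous c1).indicator hN₄.measurableSet)
      (integrable_of_continuous (hξ.continuous.mul c1)) fun x => ?_
    by_cases hx : x ∈ N₄
    · simp only [indicator_of_mem hx]
      rw [hξ1 x (hN₄W hx), one_mul]
    · simp only [indicator_of_notMem hx]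
      exact mul_nonneg (hξ0 x) (cForm_pairing_nonneg Q.g Q.A (v k) x)
  obtain ⟨s, hss, hsp, hsl⟩ := hS n N M Q Γ N₄ v hn hN₄ hN₄I (fun k => ⟨f k, hf k, hv k⟩) hcau hen0
  -- `s = e` on `N₄ ∩ O`
  have hpos' : P.μ.IsOpenPosMeasure := ⟨fun U hU hne => (measure_pos_of_isOpen P.hμ hU hne).ne'⟩
  have hse : ∀ x ∈ N₄ ∩ O, s x = e x := by
    have hU : IsOpen (N₄ ∩ O) := hN₄.inter hO
    have hNO' : N₄ ∩ O ⊆ O'ᶜ := fun x hx => hN₃O' (hN₄W hx.1)
    have hfa : ∫⁻ x in N₄ ∩ O, liminf (fun k => ENNReal.ofReal (‖T x - u k x‖ ^ 2)) atTop ∂P.μ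
        ≤ liminf (fun k => ∫⁻ x in N₄ ∩ O, ENNReal.ofReal (‖T x - u k x‖ ^ 2) ∂P.μ) atTop :=
      lintegral_liminf_le fun k =>
        (((hTs.continuous.sub (hus k).continuous).norm.pow 2).measurable).ennreal_ofReal
    have hz : Tendsto (fun k => ∫⁻ x in N₄ ∩ O, ENNReal.ofReal (‖T x - u k x‖ ^ 2) ∂P.μ) atTop
        (𝓝 0) := by
      have h1 : ∀ k, ∫⁻ x in N₄ ∩ O, ENNReal.ofReal (‖T x - u k x‖ ^ 2) ∂P.μ ≤
          ENNReal.ofReal (1 / ((k : ℝ) + 1)) := by
        intro k
        have c3 : Continuous fun x => ‖T x - u k x‖ ^ 2 :=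
          (hTs.continuous.sub (hus k).continuous).norm.pow 2
        refine (lintegral_mono_set hNO').trans ?_
        rw [← ofReal_integral_eq_lintegral_ofReal (integrable_of_continuous c3).integrableOn
          (Eventually.of_forall fun x => sq_nonneg _)]
        exact ENNReal.ofReal_le_ofReal (hFL k)
      have h2 : Tendsto (fun k : ℕ => ENNReal.ofReal (1 / ((k : ℝ) + 1))) atTop (𝓝 0) := by
        have := ENNReal.tendsto_ofReal hlim0
        rwa [ENNReal.ofReal_zero] at this
      exact tendsto_of_tendsto_of_tendsto_of_le_of_le tendsto_const_nhds h2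
        (fun k => bot_le) h1
    rw [hz.liminf_eq] at hfa
    have h0 : ∫⁻ x in N₄ ∩ O, liminf (fun k => ENNReal.ofReal (‖T x - u k x‖ ^ 2)) atTop ∂P.μ = 0 :=
      le_antisymm hfa bot_le
    have hmeas : Measurable fun x => liminf (fun k => ENNReal.ofReal (‖T x - u k x‖ ^ 2)) atTop :=
      Measurable.liminf fun k =>
        (((hTs.continuous.sub (hus k).continuous).norm.pow 2).measurable).ennreal_ofReal
    have h1 := (lintegral_eq_zero_iff hmeas).1 h0
    have h2 : ∀ᵐ x ∂(P.μ.restrict (N₄ ∩ O)), T x - s x = 0 := by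
      filter_upwards [h1, ae_restrict_mem hU.measurableSet] with x hx hxU
      have h3 : Tendsto (fun k => ENNReal.ofReal (‖T x - u k x‖ ^ 2)) atTop
          (𝓝 (ENNReal.ofReal (‖T x - s x‖ ^ 2))) := by
        refine ENNReal.tendsto_ofReal ?_
        have h4 : Tendsto (fun k => u k x) atTop (𝓝 (s x)) := by
          refine (hsl x hxU.1).congr fun k => ?_
          exact (huv k x hxU.2).symm
        exact ((tendsto_const_nhds.sub h4).norm).pow 2
      have h5 : liminf (fun k => ENNReal.ofReal (‖T x - u k x‖ ^ 2)) atTop = 0 := hx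
      rw [h3.liminf_eq, ENNReal.ofReal_eq_zero] at h5
      have h6 : ‖T x - s x‖ ^ 2 = 0 := le_antisymm h5 (sq_nonneg _)
      exact norm_eq_zero.1 (pow_eq_zero_iff (two_ne_zero) |>.1 h6)
    have hcs : ContinuousOn (fun x => T x - s x) (N₄ ∩ O) :=
      hTs.continuous.continuousOn.sub (hss.continuousOn.mono inter_subset_left)
    have hopen : IsOpen ((N₄ ∩ O) ∩ (fun x => T x - s x) ⁻¹' {0}ᶜ) :=
      hcs.isOpen_inter_preimage hU isClosed_singleton.isOpen_compl
    intro x hx
    by_contra hne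
    have hxT : T x = e x := hTe x (hN₃W (hN₄W hx.1)).1
    have hmem : x ∈ (N₄ ∩ O) ∩ (fun x => T x - s x) ⁻¹' {0}ᶜ := by
      refine ⟨hx, fun h => hne ?_⟩
      have h7 : T x - s x = 0 := h
      rw [← hxT]
      exact (sub_eq_zero.1 h7).symm
    have h8 : 0 < P.μ ((N₄ ∩ O) ∩ (fun x => T x - s x) ⁻¹' {0}ᶜ) := hopen.measure_pos P.μ ⟨x, hmem⟩
    have h9 : P.μ ((N₄ ∩ O) ∩ (fun x => T x - s x) ⁻¹' {0}ᶜ) = 0 := by
      have h10 := ae_iff.1 h2
      rw [Measure.restrict_apply' hU.measurableSet] at h10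
      rw [inter_comm]
      exact h10
    exact h8.ne' h9
  -- the section
  classical
  refine ⟨fun x => if x ∈ N₄ then s x else e x, ?_, ?_, ?_⟩
  · intro x hx
    refine ContMDiffAt.contMDiffWithinAt ?_
    by_cases hx4 : x ∈ N₄
    · have h1 : (fun x => if x ∈ N₄ then s x else e x) =ᶠ[𝓝 x] s := by
        filter_upwards [hN₄.mem_nhds hx4] with y hy
        simp only [hy, if_true]
      exact (hss.contMDiffAt (hN₄.mem_nhds hx4)).congr_of_eventuallyEq h1
    · have hxO : x ∈ O := by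
        by_contra h
        exact hx4 (hKN₄ h)
      have h1 : (fun x => if x ∈ N₄ then s x else e x) =ᶠ[𝓝 x] e := by
        filter_upwards [hO.mem_nhds hxO] with y hy
        by_cases hy4 : y ∈ N₄
        · simp only [hy4, if_true]
          exact hse y ⟨hy4, hy⟩
        · simp only [hy4, if_false]
      exact (he.contMDiffAt (hV.mem_nhds hx)).congr_of_eventuallyEq h1
  · intro x hx X
    by_cases hx4 : x ∈ N₄
    · have h1 : (fun x => if x ∈ N₄ then s x else e x) =ᶠ[𝓝 x] s := by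
        filter_upwards [hN₄.mem_nhds hx4] with y hy
        simp only [hy, if_true]
      rw [cov_congr' h1]
      exact hsp x hx4 X
    · have hxO : x ∈ O := by
        by_contra h
        exact hx4 (hKN₄ h)
      have h1 : (fun x => if x ∈ N₄ then s x else e x) =ᶠ[𝓝 x] e := by
        filter_upwards [hO.mem_nhds hxO] with y hy
        by_cases hy4 : y ∈ N₄
        · simp only [hy4, if_true]
          exact hse y ⟨hy4, hy⟩
        · simp only [hy4, if_false]
      rw [cov_congr' h1]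
      have h2 := hep x hx X
      unfold cov at h2 ⊢
      rw [← hAg.conn x hxO X]
      exact h2
  · intro x hx
    by_cases hx4 : x ∈ N₄
    · simp only [hx4, if_true]
      exact hse x ⟨hx4, hx⟩
    · simp only [hx4, if_false]

end Vale.Agent.P088.EYM.O

end
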