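import Vale.Agent.P088.H5.I.Spec
import Vale.Agent.P088.H5.I.I9_435

/-!
# P088, Theorem I, block IR: Runge approximation of a section which is parallel off a compact set
-/

set_option linter.all false

open Bundle Manifold MeasureTheory Set Filter Topology
open scoped ContDiff Matrix

noncomputable section

namespace Vale.Agent.P088.EYM.O

open Vale.Agent.P088 Vale.Agent.P088.EYM

universe u

/-- (IR) -/
theorem iR (hL : IL_statement.{u}) : IR_statement.{u} := by
  intro n N _ M _ _ _ _ _ _ _ _ P Γ O' S T hΓ hsol hO hOp hOΓ hT hT0 hS hSO hcov ε hε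
  obtain ⟨hIo, -, hcl⟩ := TM.fConn n M
  have hbd : IsClosed ((𝓡∂ n).boundary M) := by
    rw [← ModelWithCorners.compl_interior]
    exact hIo.isClosed_compl
  have hΓn : Γ.Nonempty := hOΓ.mono inter_subset_right
  obtain ⟨u, w, l, hu, hw, hw0, hcE, hcL, hlE, hlF, hlT⟩ :=
    l2 n N M P Γ O'ᶜ T hΓ hΓn hsol hT
  have hKm : MeasurableSet (O'ᶜ) := hO.measurableSet.compl
  -- the functional vanishes on sections supported in `O'`
  have hlim : ∀ φ : M → Fib N, IsBdryData (𝓡∂ n) Γ φ → tsupport φ ⊆ (O'ᶜ)ᶜ →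
      Tendsto (fun k => P.E (w k) φ) atTop (𝓝 0) := by
    intro φ hφ hs
    have h0 : ∀ k, FK P O'ᶜ (T - u k) φ = 0 := fun k =>
      fk_zero P O'ᶜ hKm _ (disjoint_left.2 fun x hx hx' => hs hx hx')
    have h1 := hlF φ hφ.smooth
    simp only [h0] at h1
    have h2 : l φ = 0 := tendsto_nhds_unique h1 tendsto_const_nhds
    have h3 := hlE φ hφ
    rwa [h2] at h3
  -- the sequence tends to zero in the interior of `O'`
  have hZ : O' ∩ Mi n M ⊆ cRungeB_Z P w := by
    refine (D779.conn_int (n := n) hO hOp).subset_of_closure_inter_subset (cRungeB_Z_open P _) ?_ ?_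
    · obtain ⟨p, hpO, hpΓ⟩ := hOΓ
      have hpZ : p ∈ cRungeB_Z P w :=
        lb_i aUcpBd TM.fInt TM.fLoc TM.fEn TM.fExt hbd hw hw0 hcE hcL
          hO.isClosed_compl hΓ hlim hpΓ (fun h => h hpO)
      obtain ⟨q, ⟨hqZ, hqO⟩, hqI⟩ := mem_closure_iff.1 (hcl p)
        (cRungeB_Z P w ∩ O') ((cRungeB_Z_open P _).inter hO) ⟨hpZ, hpO⟩
      exact ⟨q, ⟨hqO, hqI⟩, hqZ⟩
    · rintro m ⟨hmZ, hmO, hmI⟩
      exact lb_ii aUcpInt TM.fInt TM.fLoc TM.fEn TM.fExt hbd hw hcE hcL
        hO.isClosed_compl hlim hmI (fun h => h hmO) hmZ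
  -- a cut-off
  obtain ⟨θ, V, hθ, hθ0, hθ1, hθs, hV, hSV, -, hθV⟩ :=
    ex_cut (n := n) (K := S) (W := O' ∩ Mi n M) hS.isClosed (hO.inter hIo) hSO
  have hθw : ∀ k, SmS n (fun x => θ x • w k x) := fun k => hθ.smul (hw k)
  have hθb : ∀ x ∈ (𝓡∂ n).boundary M, θ x = 0 := by
    intro x hx
    refine image_eq_zero_of_notMem_tsupport fun h => ?_
    rw [← ModelWithCorners.compl_interior] at hx
    exact hx (hθs h).2
  -- the cut-off does not change the energy
  have hEθ : ∀ k, P.E (w k) T = P.E (fun x => θ x • w k x) T := by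
    intro k
    unfold One.E energy
    refine integral_congr_ae (Eventually.of_forall fun x => ?_)
    show pairing P.g P.A (w k) T x = pairing P.g P.A (fun x => θ x • w k x) T x
    by_cases hx : x ∈ S
    · refine pairing_germ435 P.g P.A ?_
      filter_upwards [hV.mem_nhds (hSV hx)] with y hy
      rw [hθV y hy, one_smul]
    · unfold pairing
      simp only [hcov x hx, inner_zero_right, mul_zero, Finset.sum_const_zero]
  obtain ⟨C, hC, hCb⟩ := hL n N M P T hT
  have hwc : ∀ k, Continuous (w k) := fun k => cRungeB_sm_cont (hw k)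
  have hwi : ∀ k, Integrable (fun x => ‖w k x‖ ^ 2) P.μ := fun k =>
    cRungeB_integrable P TM.fInt (hwc k)
  have hK0 : Tendsto (fun k => ∫ x in tsupport θ, ‖w k x‖ ^ 2 ∂P.μ) atTop (𝓝 0) :=
    cRungeB_cover hwi (isClosed_tsupport θ).isCompact (hθs.trans hZ)
  have hθw2 : ∀ k, ∫ x, ‖θ x • w k x‖ ^ 2 ∂P.μ ≤ ∫ x in tsupport θ, ‖w k x‖ ^ 2 ∂P.μ := by
    intro k
    rw [← integral_indicator (isClosed_tsupport θ).measurableSet]
    refine integral_mono (cRungeB_integrable P TM.fInt (cRungeB_sm_cont (hθw k)))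
      ((hwi k).indicator (isClosed_tsupport θ).measurableSet) fun x => ?_
    by_cases hx : x ∈ tsupport θ
    · rw [indicator_of_mem hx]
      show ‖θ x • w k x‖ ^ 2 ≤ ‖w k x‖ ^ 2
      rw [norm_smul, mul_pow]
      have h1 : ‖θ x‖ ≤ 1 := by
        rw [Real.norm_eq_abs, abs_of_nonneg (hθ0 x)]
        exact hθ1 x
      have h2 : ‖θ x‖ ^ 2 ≤ 1 := pow_le_one₀ (norm_nonneg _) h1
      nlinarith [sq_nonneg ‖w k x‖]
    · rw [indicator_of_notMem hx]
      show ‖θ x • w k x‖ ^ 2 ≤ 0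
      rw [image_eq_zero_of_notMem_tsupport hx, zero_smul, norm_zero]
      simp
  have hET : Tendsto (fun k => P.E (w k) T) atTop (𝓝 0) := by
    have h1 : Tendsto (fun k => ‖P.E (w k) T‖ ^ 2) atTop (𝓝 0) := by
      refine squeeze_zero (fun k => sq_nonneg _) (fun k => ?_) (by simpa using hK0.const_mul C)
      rw [hEθ k]
      refine (hCb _ (hθw k) fun x hx => ?_).trans (mul_le_mul_of_nonneg_left (hθw2 k) hC)
      show θ x • w k x = 0
      rw [hθb x hx, zero_smul]
    have h2 : Tendsto (fun k => ‖P.E (w k) T‖) atTop (𝓝 0) := by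
      have h3 := (Real.continuous_sqrt.tendsto 0).comp h1
      rw [Real.sqrt_zero] at h3
      refine h3.congr fun k => ?_
      exact Real.sqrt_sq (norm_nonneg _)
    exact tendsto_zero_iff_norm_tendsto_zero.2 h2
  have hTb : IsBdryData (𝓡∂ n) Γ T := by
    refine ⟨hT, ?_⟩
    have h1 : {x ∈ (𝓡∂ n).boundary M | T x ≠ 0} = ∅ := by
      ext x
      simp only [mem_setOf_eq, mem_empty_iff_false, iff_false, not_and, not_not]
      exact fun hx => hT0 x hx
    rw [h1, closure_empty]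
    exact empty_subset _
  have hlT0 : l T = 0 := tendsto_nhds_unique (hlE T hTb) hET
  rw [hlT0, Complex.zero_re] at hlT
  obtain ⟨k, hk⟩ := (Metric.tendsto_atTop.1 hlT) ε hε
  have hk1 := hk k le_rfl
  rw [Real.dist_eq, sub_zero] at hk1
  exact ⟨u k, hu k, (le_abs_self _).trans hk1.le⟩
  where
  pairing_germ435 {n N : ℕ} [NeZero n] {M : Type u} [TopologicalSpace M]
      [ChartedSpace (EuclideanHalfSpace n) M] [IsManifold (𝓡∂ n) ∞ M]
      (g : Metric (𝓡∂ n) M) (A : Connection (𝓡∂ n) N M) {u u' v : M → Fib N}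
      {x : M} (h : u =ᶠ[𝓝 x] u') : pairing g A u v x = pairing g A u' v x := by
    unfold pairing
    simp only [cov_congr' h]

end Vale.Agent.P088.EYM.O

end
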