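import Vale.Agent.P088.H5.I.Spec
import Vale.Agent.P088.H5.M5_823

/-!
# P088, Theorem I, block IS (second part): differentiable parallel sections are smooth
-/

set_option linter.all false

open Bundle Manifold MeasureTheory Set Filter Topology
open scoped ContDiff Matrix

noncomputable section

namespace Vale.Agent.P088.EYM.O

open Vale.Agent.P088 Vale.Agent.P088.EYM

universe u

section loc

variable {n N : ℕ} [NeZero n]

/-- The candidate for the differential. -/
def bT (B : Fin n → E n → EndF N) (s : E n → Fib N) (x : E n) : E n →L[ℝ] Fib N :=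
  ∑ j, (EuclideanSpace.proj (𝕜 := ℝ) j : E n →L[ℝ] ℝ).smulRight (-(B j x (s x)))

theorem bT_ev (B : Fin n → E n → EndF N) (s : E n → Fib N) (x : E n) (i : Fin n) :
    bT B s x (ev i) = -(B i x (s x)) := by
  unfold bT
  rw [ContinuousLinearMap.sum_apply]
  rw [Finset.sum_eq_single i]
  · rw [ContinuousLinearMap.smulRight_apply]
    have : (EuclideanSpace.proj (𝕜 := ℝ) i : E n →L[ℝ] ℝ) (ev i) = 1 := by simp
    rw [this, one_smul]
  · intro j _ hj
    rw [ContinuousLinearMap.smulRight_apply]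
    have : (EuclideanSpace.proj (𝕜 := ℝ) j : E n →L[ℝ] ℝ) (ev i) = 0 := by
      simp [hj]
    rw [this, zero_smul]
  · intro h
    exact absurd (Finset.mem_univ i) h

theorem b_clm_ext {F : Type*} [NormedAddCommGroup F] [NormedSpace ℝ F] {L L' : E n →L[ℝ] F}
    (h : ∀ i, L (ev i) = L' (ev i)) : L = L' := by
  ext1 v
  rw [en_expand v, map_sum, map_sum]
  refine Finset.sum_congr rfl fun i _ => ?_
  rw [map_smul, map_smul, h i]

theorem bT_smooth {m : WithTop ℕ∞} {D : Set (E n)} {B : Fin n → E n → EndF N}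
    {s : E n → Fib N} (hB : ∀ j, ContDiffOn ℝ m (B j) D) (hs : ContDiffOn ℝ m s D) :
    ContDiffOn ℝ m (bT B s) D := by
  unfold bT
  refine ContDiffOn.sum fun j _ => ?_
  have h0 : ContDiffOn ℝ m (fun x => ContinuousLinearMap.restrictScalars ℝ (B j x)) D :=
    (ContinuousLinearMap.contDiff
      (ContinuousLinearMap.restrictScalarsL ℂ (Fib N) (Fib N) ℝ ℝ)).comp_contDiffOn (hB j)
  have h1 : ContDiffOn ℝ m (fun x => -(B j x (s x))) D := (h0.clm_apply hs).neg
  exact contDiffOn_const.smulRight h1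

/-- A differentiable solution of `∂_j s = -B_j s` is smooth. -/
theorem boot_loc {D : Set (E n)} (hD : RelOpen D) {B : Fin n → E n → EndF N} {s : E n → Fib N}
    (hB : ∀ j, ContDiffOn ℝ ∞ (B j) D) (hs : ∀ x ∈ D, DifferentiableWithinAt ℝ s (Hs n) x)
    (he : ∀ x ∈ D, ∀ j, pd j s x = -(B j x (s x))) : ContDiffOn ℝ ∞ s D := by
  have hfD : ∀ x ∈ D, HasFDerivWithinAt s (bT B s x) (Hs n) x := by
    intro x hx
    have h1 := (hs x hx).hasFDerivWithinAt
    have h2 : fderivWithin ℝ s (Hs n) x = bT B s x := b_clm_ext fun i => by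
      rw [bT_ev, ← he x hx i]
      rfl
    rw [← h2]
    exact h1
  have hfw : ∀ x ∈ D, fderivWithin ℝ s D x = bT B s x := by
    intro x hx
    rw [hD.fderivWithin_eq hx]
    exact (hfD x hx).fderivWithin (uniqueDiffOn_Hs x (hD.subset hx))
  have hd : DifferentiableOn ℝ s D :=
    fun x hx => ((hfD x hx).mono hD.subset).differentiableWithinAt
  have hsm : ∀ m : ℕ, ContDiffOn ℝ m s D := by
    intro m
    induction m with
    | zero => exact contDiffOn_zero.2 hd.continuousOn
    | succ m ih =>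
      have h5 : ContDiffOn ℝ ((m : ℕ∞) : WithTop ℕ∞) (bT B s) D :=
        bT_smooth (fun j => (hB j).of_le (by exact_mod_cast le_top)) ih
      have h6 : ContDiffOn ℝ (((m : ℕ∞) : WithTop ℕ∞) + 1) s D :=
        contDiffOn_succ_of_fderivWithin hd (fun h => absurd h (by simp)) (h5.congr hfw)
      exact h6
  exact contDiffOn_infty.2 hsm

end loc

section glob

variable {n N : ℕ} [NeZero n] {M : Type u} [TopologicalSpace M]
  [ChartedSpace (EuclideanHalfSpace n) M] [IsManifold (𝓡∂ n) ∞ M]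

/-- A differentiable parallel section is smooth. -/
theorem boot {W : Set M} (hW : IsOpen W) (A : Connection (𝓡∂ n) N M) {s : M → Fib N}
    (hd : ∀ x ∈ W, MDifferentiableAt (𝓡∂ n) 𝓘(ℝ, Fib N) s x)
    (hc : ∀ x ∈ W, ∀ X : TangentSpace (𝓡∂ n) x, cov A s x X = 0) :
    ContMDiffOn (𝓡∂ n) 𝓘(ℝ, Fib N) ∞ s W := by
  have hrel : ∀ p : M, RelOpen (tg n p) := _root_.Vale.Agent.P088.S.brEq_relOpen (n := n)
  intro p hp
  refine ContMDiffAt.contMDiffWithinAt ?_
  set c := xc n p p with hcd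
  have hct : c ∈ tg n p := mem_extChartAt_target p
  obtain ⟨r, hr, hrD, hrW⟩ : ∃ r > 0, HB c r ⊆ tg n p ∧ HB c r ⊆ (xc n p).symm ⁻¹' W := by
    obtain ⟨O, hO, hOe⟩ := hrel p
    have hct' := hct
    rw [hOe] at hct'
    have h1 : (xc n p).symm ⁻¹' W ∈ 𝓝 c :=
      (continuousAt_extChartAt_symm p).preimage_mem_nhds
        (by rw [extChartAt_to_inv p]; exact hW.mem_nhds hp)
    obtain ⟨r, hr, hrO⟩ := Metric.mem_nhds_iff.1 (inter_mem (hO.mem_nhds hct'.1) h1)
    refine ⟨r, hr, ?_, ?_⟩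
    · rw [hOe]
      exact inter_subset_inter_left _ (hrO.trans inter_subset_left)
    · exact inter_subset_left.trans (hrO.trans inter_subset_right)
  have hB : ∀ j, ContDiffOn ℝ ∞ (fun y =>
      A.form ((xc n p).symm y) (coordVec (𝓡∂ n) p ((xc n p).symm y) j)) (HB c r) := by
    intro j
    rw [← contMDiffOn_iff_contDiffOn]
    exact (A.smooth p j).comp ((contMDiffOn_extChartAt_symm p).mono hrD)
      fun y hy => (xc n p).map_target (hrD hy)
  have hsm : ContDiffOn ℝ ∞ (lu (𝓡∂ n) p s) (HB c r) := by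
    refine boot_loc (relOpen_HB c r) (B := fun j y =>
      A.form ((xc n p).symm y) (coordVec (𝓡∂ n) p ((xc n p).symm y) j)) hB ?_ ?_
    · intro y hy
      have hyt : y ∈ tg n p := hrD hy
      have hm : (xc n p).symm y ∈ (xc n p).source := (xc n p).map_target hyt
      have h1 := (hasFDerivWithinAt_lu (𝓡∂ n) hm (hd _ (hrW hy))).differentiableWithinAt
      rw [(xc n p).right_inv hyt, cChart_range] at h1
      exact h1
    · intro y hy j
      have hyt : y ∈ tg n p := hrD hy
      have hm : (xc n p).symm y ∈ (xc n p).source := (xc n p).map_target hyt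
      have h3 := dmap_cc (𝓡∂ n) hm (hd _ (hrW hy)) (ev j)
      rw [(xc n p).right_inv hyt, cChart_range] at h3
      show fderivWithin ℝ (lu (𝓡∂ n) p s) (Hs n) y (ev j) = _
      rw [← h3]
      exact eq_neg_of_add_eq_zero_left (hc _ (hrW hy) _)
  have hO : IsOpen ((xc n p).source ∩ xc n p ⁻¹' Metric.ball (xc n p p) r) :=
    (continuousOn_extChartAt p).isOpen_inter_preimage (isOpen_extChartAt_source p)
      Metric.isOpen_ball
  have hOp : (xc n p).source ∩ xc n p ⁻¹' Metric.ball (xc n p p) r ∈ 𝓝 p :=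
    hO.mem_nhds ⟨mem_extChartAt_source p, Metric.mem_ball_self hr⟩
  have hmaps : MapsTo (xc n p) ((xc n p).source ∩ xc n p ⁻¹' Metric.ball (xc n p p) r)
      (HB (xc n p p) r) := fun y hy => ⟨hy.2, (hrel p).subset ((xc n p).map_source hy.1)⟩
  have h2 : ContMDiffOn (𝓡∂ n) 𝓘(ℝ, Fib N) ∞ (fun x => lu (𝓡∂ n) p s (xc n p x))
      ((xc n p).source ∩ xc n p ⁻¹' Metric.ball (xc n p p) r) := by
    have h3 : ContMDiffOn 𝓘(ℝ, E n) 𝓘(ℝ, Fib N) ∞ (lu (𝓡∂ n) p s) (HB (xc n p p) r) :=
      contMDiffOn_iff_contDiffOn.2 hsm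
    have h4 : ContMDiffOn (𝓡∂ n) 𝓘(ℝ, E n) ∞ (xc n p) (xc n p).source := by
      have := contMDiffOn_extChartAt (I := 𝓡∂ n) (n := ∞) (x := p)
      rwa [← extChartAt_source (𝓡∂ n)] at this
    exact h3.comp (h4.mono inter_subset_left) hmaps
  refine (h2.contMDiffAt hOp).congr_of_eventuallyEq ?_
  filter_upwards [hOp] with y hy
  unfold lu
  rw [(xc n p).left_inv hy.1]

end glob

end Vale.Agent.P088.EYM.O

end
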