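import Vale.Agent.P088.H5.I.Spec
import Vale.Agent.P088.H5.MF332
import Vale.Agent.P088.H5.I.IS452

/-!
# P088, Theorem I: the limit of solutions with energies tending to zero is parallel
-/

set_option linter.all false

open Bundle Manifold MeasureTheory Set Filter Topology
open scoped ContDiff Matrix

noncomputable section

namespace Vale.Agent.P088.EYM.O

open Vale.Agent.P088 Vale.Agent.P088.EYM

universe u

/-- `C¹` limits on a ball. -/
theorem is_an {n N : ℕ} [NeZero n] (z : E n) (r : ℝ) (B : Fin n → E n → EndF N)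
    (f : ℕ → E n → Fib N) (hpos : Metric.closedBall z r ⊆ {y | 0 < y 0})
    (hf : ∀ k, ContDiffOn ℝ 1 (f k) (Metric.ball z r))
    (hnc : ∀ j k, ContinuousOn (fun y => pd j (f k) y + B j y (f k y)) (Metric.closedBall z r))
    (hB : ∀ j, ContinuousOn (B j) (Metric.closedBall z r))
    (hcau : ∀ ε > 0, ∃ k₀, ∀ k ≥ k₀, ∀ l ≥ k₀, ∀ y ∈ Metric.ball z r,
      ‖f k y - f l y‖ + ∑ j, ‖pd j (f k) y - pd j (f l) y‖ ≤ ε)
    (h0 : ∀ j, Tendsto (fun k => ∫ y in Metric.ball z r, ‖pd j (f k) y + B j y (f k y)‖ ^ 2)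
      atTop (𝓝 0)) :
    ∃ s : E n → Fib N, (∀ y ∈ Metric.ball z r, Tendsto (fun k => f k y) atTop (𝓝 (s y))) ∧
      (∀ y ∈ Metric.ball z r, DifferentiableAt ℝ s y) ∧
      ∀ y ∈ Metric.ball z r, ∀ j, pd j s y = -(B j y (s y)) := by
  have hbc : Metric.ball z r ⊆ Metric.closedBall z r := Metric.ball_subset_closedBall
  have hbp : Metric.ball z r ⊆ {y | 0 < y 0} := hbc.trans hpos
  have hcau0 : ∀ ε > 0, ∃ k₀, ∀ k ≥ k₀, ∀ l ≥ k₀, ∀ y ∈ Metric.ball z r,
      ‖f k y - f l y‖ ≤ ε := by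
    intro ε hε
    obtain ⟨k₀, hk₀⟩ := hcau ε hε
    refine ⟨k₀, fun k hk l hl y hy => ?_⟩
    have h2 := hk₀ k hk l hl y hy
    have h3 : 0 ≤ ∑ j, ‖pd j (f k) y - pd j (f l) y‖ := Finset.sum_nonneg fun _ _ => norm_nonneg _
    linarith
  have hcaud : ∀ ε > 0, ∃ k₀, ∀ k ≥ k₀, ∀ l ≥ k₀, ∀ y ∈ Metric.ball z r, ∀ j,
      ‖pd j (f k) y - pd j (f l) y‖ ≤ ε := by
    intro ε hε
    obtain ⟨k₀, hk₀⟩ := hcau ε hε
    refine ⟨k₀, fun k hk l hl y hy j => ?_⟩
    have h2 := hk₀ k hk l hl y hy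
    have h3 : ‖pd j (f k) y - pd j (f l) y‖ ≤ ∑ j, ‖pd j (f k) y - pd j (f l) y‖ :=
      Finset.single_le_sum (f := fun j => ‖pd j (f k) y - pd j (f l) y‖)
        (fun _ _ => norm_nonneg _) (Finset.mem_univ j)
    have h4 := norm_nonneg (f k y - f l y)
    linarith
  have hU0 : UniformCauchySeqOn f atTop (Metric.ball z r) := by
    rw [Metric.uniformCauchySeqOn_iff]
    intro ε hε
    obtain ⟨k₀, hk₀⟩ := hcau0 (ε / 2) (by positivity)
    refine ⟨k₀, fun k hk l hl y hy => ?_⟩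
    rw [dist_eq_norm]
    exact lt_of_le_of_lt (hk₀ k hk l hl y hy) (by linarith)
  have hUC : UniformCauchySeqOn (fun k y => fderiv ℝ (f k) y) atTop (Metric.ball z r) := by
    rw [Metric.uniformCauchySeqOn_iff]
    intro ε hε
    obtain ⟨k₀, hk₀⟩ := hcau (ε / 2) (by positivity)
    refine ⟨k₀, fun k hk l hl y hy => ?_⟩
    rw [dist_eq_norm]
    refine lt_of_le_of_lt ?_ (show ε / 2 < ε by linarith)
    refine (cRunge_opNorm _).trans (le_trans ?_ (hk₀ k hk l hl y hy))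
    refine le_add_of_nonneg_of_le (norm_nonneg _) (le_of_eq ?_)
    refine Finset.sum_congr rfl fun j _ => ?_
    rw [cRunge_pd (hbp hy), cRunge_pd (hbp hy), sub_apply]
  have hlim0 : ∀ y, ∃ G : Fib N, y ∈ Metric.ball z r → Tendsto (fun k => f k y) atTop (𝓝 G) := by
    intro y
    by_cases hy : y ∈ Metric.ball z r
    · obtain ⟨G, hG⟩ := cauchySeq_tendsto_of_complete (hU0.cauchySeq hy)
      exact ⟨G, fun _ => hG⟩
    · exact ⟨0, fun h => absurd h hy⟩
  choose s hs using hlim0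
  have hlim : ∀ y, ∃ G : E n →L[ℝ] Fib N, y ∈ Metric.ball z r →
      Tendsto (fun k => fderiv ℝ (f k) y) atTop (𝓝 G) := by
    intro y
    by_cases hy : y ∈ Metric.ball z r
    · obtain ⟨G, hG⟩ := cauchySeq_tendsto_of_complete (hUC.cauchySeq hy)
      exact ⟨G, fun _ => hG⟩
    · exact ⟨0, fun h => absurd h hy⟩
  choose G hG using hlim
  have hTU := hUC.tendstoUniformlyOn_of_tendsto hG
  have hfd : ∀ k, ∀ y ∈ Metric.ball z r, HasFDerivAt (f k) (fderiv ℝ (f k) y) y := by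
    intro k y hy
    have h1 : ContDiffAt ℝ 1 (f k) y := (hf k).contDiffAt (Metric.isOpen_ball.mem_nhds hy)
    exact (h1.differentiableAt one_ne_zero).hasFDerivAt
  have hder : ∀ y ∈ Metric.ball z r, HasFDerivAt s (G y) y := fun y hy =>
    hasFDerivAt_of_tendstoUniformlyOn Metric.isOpen_ball hTU hfd hs hy
  refine ⟨s, hs, fun y hy => (hder y hy).differentiableAt, fun y hy j => ?_⟩
  -- bounds for `B`
  obtain ⟨β, hβ⟩ := (isCompact_closedBall z r).bddAbove_image (hB j).norm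
  have hβ' : ∀ x ∈ Metric.closedBall z r, ‖B j x‖ ≤ β := fun x hx => hβ ⟨x, hx, rfl⟩
  have h1 : Tendsto (fun k => pd j (f k) y + B j y (f k y)) atTop (𝓝 0) := by
    refine cRunge_unif z r (fun k y => pd j (f k) y + B j y (f k y))
      (fun k => (hnc j k).mono hbc)
      (fun k => (((hnc j k).norm.pow 2).integrableOn_compact (isCompact_closedBall z r)).mono_set
        hbc) (h0 j) ?_ y hy
    intro ε hε
    obtain ⟨k₁, hk₁⟩ := hcaud (ε / 2) (by positivity)
    obtain ⟨k₂, hk₂⟩ := hcau0 (ε / (2 * (|β| + 1))) (by positivity)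
    refine ⟨max k₁ k₂, fun k hk l hl x hx => ?_⟩
    have a1 := hk₁ k (le_of_max_le_left hk) l (le_of_max_le_left hl) x hx j
    have a2 := hk₂ k (le_of_max_le_right hk) l (le_of_max_le_right hl) x hx
    have a3 : (pd j (f k) x + B j x (f k x)) - (pd j (f l) x + B j x (f l x)) =
        (pd j (f k) x - pd j (f l) x) + B j x (f k x - f l x) := by
      rw [map_sub]
      abel
    have a4 : ‖B j x (f k x - f l x)‖ ≤ (|β| + 1) * (ε / (2 * (|β| + 1))) := by
      refine ((B j x).le_opNorm _).trans ?_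
      refine mul_le_mul ?_ a2 (norm_nonneg _) (by positivity)
      exact (hβ' x (hbc hx)).trans ((le_abs_self β).trans (by linarith))
    have a5 : (|β| + 1) * (ε / (2 * (|β| + 1))) = ε / 2 := by
      have : |β| + 1 ≠ 0 := by positivity
      field_simp
    rw [a3]
    refine (norm_add_le _ _).trans ?_
    linarith
  have h2 : Tendsto (fun k => pd j (f k) y + B j y (f k y)) atTop
      (𝓝 (pd j s y + B j y (s y))) := by
    have b1 : Tendsto (fun k => pd j (f k) y) atTop (𝓝 (pd j s y)) := by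
      have b2 : ∀ k, pd j (f k) y = fderiv ℝ (f k) y (ev j) := fun k => cRunge_pd (hbp hy) j
      simp only [b2]
      rw [cRunge_pd (hbp hy), (hder y hy).fderiv]
      exact ((ContinuousLinearMap.apply ℝ (Fib N) (ev j : E n)).continuous.tendsto _).comp
        (hG y hy)
    exact b1.add (((B j y).continuous.tendsto _).comp (hs y hy))
  have h3 := tendsto_nhds_unique h2 h1
  exact eq_neg_of_add_eq_zero_left h3

section

variable {n N : ℕ} [NeZero n] {M : Type u} [TopologicalSpace M]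
  [ChartedSpace (EuclideanHalfSpace n) M] [IsManifold (𝓡∂ n) ∞ M] [T2Space M] [CompactSpace M]
  [MeasurableSpace M] [BorelSpace M]

/-- The limit in a chart. -/
theorem is_chart (Q : One n N M) {Γ W : Set M} {v : ℕ → M → Fib N} (hW : IsOpen W)
    (hWi : W ⊆ Mi n M) (hv : ∀ k, v k ∈ Q.U Γ)
    (hc : ∀ ε > 0, ∃ k₀, ∀ k ≥ k₀, ∀ l ≥ k₀, ∫ x in W, ‖v k x - v l x‖ ^ 2 ∂Q.μ ≤ ε)
    (h0 : Tendsto (fun k => ∫ x in W, (pairing Q.g Q.A (v k) (v k) x).re ∂Q.μ) atTop (𝓝 0))
    {p : M} (hp : p ∈ W) :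
    ∃ r > 0, Metric.ball (xc n p p) r ⊆ tg n p ∧ Metric.ball (xc n p p) r ⊆ {y | 0 < y 0} ∧
      ∃ s : E n → Fib N,
      (∀ y ∈ Metric.ball (xc n p p) r,
        Tendsto (fun k => v k ((xc n p).symm y)) atTop (𝓝 (s y))) ∧
      (∀ y ∈ Metric.ball (xc n p p) r, DifferentiableAt ℝ s y) ∧
      ∀ y ∈ Metric.ball (xc n p p) r, ∀ j, pd j s y = -((Q.loc p).B j y (s y)) := by
  have hLoc := TM.fLoc.{u}
  have hInt := TM.fInt.{u}
  obtain ⟨hfin, -, hint⟩ := hInt n N M Q
  obtain ⟨hrel, hok, -, hsm⟩ := hLoc n N M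
  have hvs : ∀ k, SmS n (v k) := fun k => by
    obtain ⟨f, -, hf⟩ := hv k
    exact hf.smooth
  have hlu : ∀ k, ContDiffOn ℝ ∞ (lu (𝓡∂ n) p (v k)) (tg n p) := fun k => hsm (v k) (hvs k) p
  set z := xc n p p with hz
  have hms : p ∈ (xc n p).source := mem_extChartAt_source p
  have hzt : z ∈ tg n p := (xc n p).map_source hms
  have hzp : (xc n p).symm z = p := (xc n p).left_inv hms
  have hz0 : 0 < z 0 := cRungeB_pos_of_mi hLoc p hms (hWi hp)
  obtain ⟨r₁, hr₁, h1, h2⟩ := cRungeB_ball hLoc p hW hzt (by rw [hzp]; exact hp)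
  obtain ⟨r₂, hr₂, h3⟩ := cRungeB_ball_pos hz0
  obtain ⟨r, hr, hrr₁, hrr₂⟩ : ∃ r > 0, r ≤ r₁ ∧ r ≤ r₂ :=
    ⟨min r₁ r₂, lt_min hr₁ hr₂, min_le_left _ _, min_le_right _ _⟩
  have hpos : Metric.closedBall z r ⊆ {y | 0 < y 0} := h3 r hrr₂
  have hHs : Metric.closedBall z r ⊆ Hs n := fun y hy =>
    show (0 : ℝ) ≤ y 0 from le_of_lt (hpos hy)
  have hin : Metric.closedBall z r ⊆ Metric.closedBall z r₁ ∩ Hs n := fun y hy =>
    ⟨Metric.closedBall_subset_closedBall hrr₁ hy, hHs hy⟩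
  have hct : Metric.closedBall z r ⊆ tg n p := hin.trans h1
  have hbt : Metric.ball z r ⊆ tg n p := Metric.ball_subset_closedBall.trans hct
  have hsubW : ∀ D : Set (E n), D ⊆ Metric.closedBall z r → (xc n p).symm '' D ⊆ W := by
    rintro D hD _ ⟨y, hy, rfl⟩
    exact h2 y (hin (hD hy))
  have hhalf : Metric.closedBall z (r / 2) ⊆ Metric.closedBall z r :=
    Metric.closedBall_subset_closedBall (by linarith)
  have hbhalf : Metric.ball z (r / 2) ⊆ Metric.closedBall z r :=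
    Metric.ball_subset_closedBall.trans hhalf
  -- the interior estimate
  set D : Set (E n) := tg n p ∩ {y | 0 < y 0} with hD
  have hDo : IsOpen D := by
    obtain ⟨O, hO, hOD⟩ := hrel p
    have : D = O ∩ {y | 0 < y 0} := by
      rw [hD, hOD]
      ext y
      constructor
      · rintro ⟨⟨h1, -⟩, h2⟩
        exact ⟨h1, h2⟩
      · rintro ⟨h1, h2⟩
        exact ⟨⟨h1, le_of_lt (show 0 < y 0 from h2)⟩, h2⟩
    rw [this]
    exact hO.inter (isOpen_lt continuous_const (continuous_coord 0))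
  have hDH : D ⊆ Hs n := fun y hy => le_of_lt (show 0 < y 0 from hy.2)
  have hokD : (Q.loc p).Ok D := cRunge_okmono (hok Q p) inter_subset_left
  obtain ⟨C, hC⟩ := TM.fAInt n N (Q.loc p) D hDo hDH hokD z r hr
    (fun y hy => ⟨hct hy, hpos hy⟩)
  have hsolp : ∀ k, Sol (Q.loc p) (tg n p) (lu (𝓡∂ n) p (v k)) := by
    intro k
    obtain ⟨f, -, hf⟩ := hv k
    exact TM.fHarm n N M Q f (v k) hf p
  have hsol : ∀ k l, Sol (Q.loc p) D
      (fun y => lu (𝓡∂ n) p (v k) y - lu (𝓡∂ n) p (v l) y) := by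
    intro k l
    have h4 := cClosed_sol_sub (hrel p) (hok Q p) (hsolp k) (hsolp l)
    exact ⟨h4.1.mono inter_subset_left, fun y hy => h4.2 y hy.1⟩
  have hest : ∀ k l, ∀ y ∈ Metric.ball z (r / 2),
      (‖lu (𝓡∂ n) p (v k) y - lu (𝓡∂ n) p (v l) y‖ +
        ∑ j, ‖pd j (lu (𝓡∂ n) p (v k)) y - pd j (lu (𝓡∂ n) p (v l)) y‖) ^ 2 ≤
      C * ∫ y in Metric.ball z r, ‖lu (𝓡∂ n) p (v k) y - lu (𝓡∂ n) p (v l) y‖ ^ 2 := by
    intro k l y hy
    have h4 := hC _ (hsol k l) y hy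
    have hyt : y ∈ tg n p := hct (hbhalf hy)
    have h5 : ∀ j, pd j (fun y => lu (𝓡∂ n) p (v k) y - lu (𝓡∂ n) p (v l) y) y =
        pd j (lu (𝓡∂ n) p (v k)) y - pd j (lu (𝓡∂ n) p (v l)) y := fun j =>
      (hrel p).pd_sub (hlu k) (hlu l) hyt j
    simp only [h5] at h4
    exact h4
  obtain ⟨a, b', ha, -, hT⟩ := cRungeB_T1 Q hInt hLoc p (isCompact_closedBall z r) hct
  have hL2 : ∀ k l, a * ∫ y in Metric.ball z r,
      ‖lu (𝓡∂ n) p (v k) y - lu (𝓡∂ n) p (v l) y‖ ^ 2 ≤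
      ∫ x in W, ‖v k x - v l x‖ ^ 2 ∂Q.μ := by
    intro k l
    have hcc : Continuous (v k - v l) := (hvs k).continuous.sub (hvs l).continuous
    refine ((hT (Metric.ball z r) measurableSet_ball Metric.ball_subset_closedBall
      (v k - v l) hcc).1).trans ?_
    refine setIntegral_mono_set (cRungeB_integrable Q hInt hcc).integrableOn
      (Eventually.of_forall fun _ => sq_nonneg _) ?_
    exact LE.le.eventuallyLE (hsubW _ Metric.ball_subset_closedBall)
  have hcau : ∀ ε > 0, ∃ k₀, ∀ k ≥ k₀, ∀ l ≥ k₀, ∀ y ∈ Metric.ball z (r / 2),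
      ‖lu (𝓡∂ n) p (v k) y - lu (𝓡∂ n) p (v l) y‖ +
        ∑ j, ‖pd j (lu (𝓡∂ n) p (v k)) y - pd j (lu (𝓡∂ n) p (v l)) y‖ ≤ ε := by
    intro ε hε
    obtain ⟨k₀, hk₀⟩ := hc (a * (ε ^ 2 / (|C| + 1))) (by positivity)
    refine ⟨k₀, fun k hk l hl y hy => ?_⟩
    have h4 := hk₀ k hk l hl
    have h5 := (hL2 k l).trans h4
    have h6 : ∫ y in Metric.ball z r, ‖lu (𝓡∂ n) p (v k) y - lu (𝓡∂ n) p (v l) y‖ ^ 2 ≤
        ε ^ 2 / (|C| + 1) := le_of_mul_le_mul_left h5 ha
    have h6' : 0 ≤ ∫ y in Metric.ball z r, ‖lu (𝓡∂ n) p (v k) y - lu (𝓡∂ n) p (v l) y‖ ^ 2 :=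
      integral_nonneg fun _ => sq_nonneg _
    have h7 := hest k l y hy
    have h8 : C * ∫ y in Metric.ball z r,
        ‖lu (𝓡∂ n) p (v k) y - lu (𝓡∂ n) p (v l) y‖ ^ 2 ≤ ε ^ 2 := by
      calc C * ∫ y in Metric.ball z r, ‖lu (𝓡∂ n) p (v k) y - lu (𝓡∂ n) p (v l) y‖ ^ 2
          ≤ (|C| + 1) * (ε ^ 2 / (|C| + 1)) := by
            refine mul_le_mul ((le_abs_self C).trans (by linarith)) h6 h6' (by positivity)
        _ = ε ^ 2 := by
            have : |C| + 1 ≠ 0 := by positivity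
            field_simp
    have h9 : 0 ≤ ‖lu (𝓡∂ n) p (v k) y - lu (𝓡∂ n) p (v l) y‖ +
        ∑ j, ‖pd j (lu (𝓡∂ n) p (v k)) y - pd j (lu (𝓡∂ n) p (v l)) y‖ :=
      add_nonneg (norm_nonneg _) (Finset.sum_nonneg fun _ _ => norm_nonneg _)
    exact (pow_le_pow_iff_left₀ h9 hε.le two_ne_zero).1 (h7.trans h8)
  -- the energies
  have hnc : ∀ j k, ContinuousOn (fun y => nab (Q.loc p) j (lu (𝓡∂ n) p (v k)) y) (tg n p) := by
    intro j k
    have h4 : ContinuousOn (fun y => pd j (lu (𝓡∂ n) p (v k)) y) (tg n p) :=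
      ((hrel p).pd_smooth (hlu k) j).continuousOn
    have h5 : ContinuousOn (fun y => (Q.loc p).B j y (lu (𝓡∂ n) p (v k) y)) (tg n p) :=
      ((hok Q p).B_smooth j).continuousOn.clm_apply (hlu k).continuousOn
    exact h4.add h5
  obtain ⟨α, hα, hlow⟩ := cRungeB_lower (hrel p) (hok Q p) (isCompact_closedBall z r) hct
  have hen : ∀ j k, α * ∫ y in Metric.ball z (r / 2),
      ‖nab (Q.loc p) j (lu (𝓡∂ n) p (v k)) y‖ ^ 2 ≤
      ∫ x in W, (pairing Q.g Q.A (v k) (v k) x).re ∂Q.μ := by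
    intro j k
    have hcp : Continuous (pairing Q.g Q.A (v k) (v k)) :=
      continuous_pairing Q.g Q.A (hvs k) (hvs k)
    have hBt : Metric.ball z (r / 2) ⊆ tg n p := hbhalf.trans hct
    have hip : Integrable (pairing Q.g Q.A (v k) (v k)) Q.μ := CEnergy_integrable Q hcp
    have e1 : ∫ x in (xc n p).symm '' Metric.ball z (r / 2),
        (pairing Q.g Q.A (v k) (v k) x).re ∂Q.μ =
        ∫ y in Metric.ball z (r / 2),
          (ed (Q.loc p) (lu (𝓡∂ n) p (v k)) (lu (𝓡∂ n) p (v k)) y).re := by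
      have e2 := (hint p (Metric.ball z (r / 2)) measurableSet_ball hBt).2 _
        hcp.aestronglyMeasurable
      have e3 : ∫ y in Metric.ball z (r / 2), (Real.sqrt ((Q.loc p).g y).det : ℂ) *
          pairing Q.g Q.A (v k) (v k) ((xc n p).symm y) =
          ∫ y in Metric.ball z (r / 2),
            ed (Q.loc p) (lu (𝓡∂ n) p (v k)) (lu (𝓡∂ n) p (v k)) y :=
        setIntegral_congr_fun measurableSet_ball fun y hy =>
          (CEnergy_ed Q p (hvs k) (hvs k) (hBt hy)).symm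
      have e4 : IntegrableOn (ed (Q.loc p) (lu (𝓡∂ n) p (v k)) (lu (𝓡∂ n) p (v k)))
          (Metric.ball z (r / 2)) := by
        refine ((CEnergy_integrableOn Q p hcp).mono_set hBt).congr_fun ?_ measurableSet_ball
        intro y hy
        exact (CEnergy_ed Q p (hvs k) (hvs k) (hBt hy)).symm
      have e5 : (∫ x in (xc n p).symm '' Metric.ball z (r / 2),
          pairing Q.g Q.A (v k) (v k) x ∂Q.μ).re = ∫ x in (xc n p).symm '' Metric.ball z (r / 2),
          (pairing Q.g Q.A (v k) (v k) x).re ∂Q.μ :=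
        (Complex.reCLM.integral_comp_comm hip.integrableOn).symm
      have e6 : (∫ y in Metric.ball z (r / 2),
          ed (Q.loc p) (lu (𝓡∂ n) p (v k)) (lu (𝓡∂ n) p (v k)) y).re =
          ∫ y in Metric.ball z (r / 2),
            (ed (Q.loc p) (lu (𝓡∂ n) p (v k)) (lu (𝓡∂ n) p (v k)) y).re :=
        (Complex.reCLM.integral_comp_comm e4).symm
      rw [← e5, ← e6, ← e3, ← e2]
    have e7 : ∫ x in (xc n p).symm '' Metric.ball z (r / 2),
        (pairing Q.g Q.A (v k) (v k) x).re ∂Q.μ ≤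
        ∫ x in W, (pairing Q.g Q.A (v k) (v k) x).re ∂Q.μ := by
      refine setIntegral_mono_set (Complex.reCLM.integrable_comp hip).integrableOn
        (Eventually.of_forall fun x => CEnergy_pairing_nonneg Q (v k) x) ?_
      exact LE.le.eventuallyLE (hsubW _ hbhalf)
    refine le_trans ?_ e7
    rw [e1, ← integral_const_mul]
    have i1 : IntegrableOn (fun y => ‖nab (Q.loc p) j (lu (𝓡∂ n) p (v k)) y‖ ^ 2)
        (Metric.ball z (r / 2)) :=
      ((((hnc j k).mono hct).norm.pow 2).integrableOn_compact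
        (isCompact_closedBall z r)).mono_set hbhalf
    have i2 : IntegrableOn (fun y =>
        (ed (Q.loc p) (lu (𝓡∂ n) p (v k)) (lu (𝓡∂ n) p (v k)) y).re)
          (Metric.ball z (r / 2)) := by
      have e4 : IntegrableOn (ed (Q.loc p) (lu (𝓡∂ n) p (v k)) (lu (𝓡∂ n) p (v k)))
          (Metric.ball z (r / 2)) := by
        refine ((CEnergy_integrableOn Q p hcp).mono_set hBt).congr_fun ?_ measurableSet_ball
        intro y hy
        exact (CEnergy_ed Q p (hvs k) (hvs k) (hBt hy)).symm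
      exact e4.re
    refine setIntegral_mono_on (i1.const_mul α) i2 measurableSet_ball fun y hy => ?_
    have h9 := cRungeB_coer (hlow y (hbhalf hy))
      (fun j => nab (Q.loc p) j (lu (𝓡∂ n) p (v k)) y)
    refine le_trans ?_ h9
    refine mul_le_mul_of_nonneg_left ?_ hα.le
    exact Finset.single_le_sum
      (f := fun j => ‖nab (Q.loc p) j (lu (𝓡∂ n) p (v k)) y‖ ^ 2)
      (fun _ _ => sq_nonneg _) (Finset.mem_univ j)
  have h0' : ∀ j, Tendsto (fun k => ∫ y in Metric.ball z (r / 2),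
      ‖nab (Q.loc p) j (lu (𝓡∂ n) p (v k)) y‖ ^ 2) atTop (𝓝 0) := by
    intro j
    have h4 := h0.const_mul α⁻¹
    rw [mul_zero] at h4
    refine squeeze_zero (fun k => integral_nonneg fun _ => sq_nonneg _) (fun k => ?_) h4
    rw [← div_eq_inv_mul, le_div_iff₀ hα, mul_comm]
    exact hen j k
  obtain ⟨s, hs1, hs2, hs3⟩ := is_an z (r / 2) (Q.loc p).B (fun k => lu (𝓡∂ n) p (v k))
    (hhalf.trans hpos) (fun k => ((hlu k).of_le (by simp)).mono (hbhalf.trans hct))
    (fun j k => (hnc j k).mono (hhalf.trans hct))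
    (fun j => ((hok Q p).B_smooth j).continuousOn.mono (hhalf.trans hct)) hcau h0'
  exact ⟨r / 2, by linarith, hbhalf.trans hct, hbhalf.trans hpos, s, hs1, hs2, hs3⟩

/-- The covariant derivative in a chart, differentiable sections. -/
theorem is_cov (Q : One n N M) (p : M) {s : M → Fib N} {y : E n} (hy : y ∈ tg n p)
    (hs : MDifferentiableAt (𝓡∂ n) 𝓘(ℝ, Fib N) s ((xc n p).symm y)) (j : Fin n) :
    nab (Q.loc p) j (lu (𝓡∂ n) p s) y =
      cov Q.A s ((xc n p).symm y) (coordVec (𝓡∂ n) p ((xc n p).symm y) j) := by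
  have hx : (xc n p).symm y ∈ (extChartAt (𝓡∂ n) p).source := (xc n p).map_target hy
  unfold nab cov
  rw [dmap_coordVec (𝓡∂ n) hx hs, CEnergy_range, (xc n p).right_inv hy]
  rfl

end

theorem iS : IS_statement.{u} := by
  intro n N _ M _ _ _ _ _ _ _ _ Q Γ W v hn hW hWi hv hc h0
  set s : M → Fib N := fun x => limUnder atTop (fun k => v k x) with hs
  have key : ∀ p ∈ W, Tendsto (fun k => v k p) atTop (𝓝 (s p)) ∧
      MDifferentiableAt (𝓡∂ n) 𝓘(ℝ, Fib N) s p ∧
      ∀ X : TangentSpace (𝓡∂ n) p, cov Q.A s p X = 0 := by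
    intro p hp
    obtain ⟨r, hr, hbt, hbp, f, hf1, hf2, hf3⟩ := is_chart Q hW hWi hv hc h0 hp
    set z := xc n p p with hz
    have hms : p ∈ (xc n p).source := mem_extChartAt_source p
    have hzt : z ∈ tg n p := (xc n p).map_source hms
    have hzp : (xc n p).symm z = p := (xc n p).left_inv hms
    have hzb : z ∈ Metric.ball z r := Metric.mem_ball_self hr
    have hsf : ∀ y ∈ Metric.ball z r, s ((xc n p).symm y) = f y := fun y hy =>
      (hf1 y hy).limUnder_eq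
    have hsp : s p = f z := by
      have := hsf z hzb
      rwa [hzp] at this
    have hnb : (xc n p).source ∩ (xc n p) ⁻¹' Metric.ball z r ∈ 𝓝 p :=
      (isOpen_extChartAt_preimage' p Metric.isOpen_ball).mem_nhds ⟨hms, hzb⟩
    have hev : s =ᶠ[𝓝 p] fun m => f (xc n p m) := by
      filter_upwards [hnb] with m hm
      have h1 := hsf (xc n p m) hm.2
      rwa [(xc n p).left_inv hm.1] at h1
    have hmd : MDifferentiableAt (𝓡∂ n) 𝓘(ℝ, Fib N) s p := by
      have h1 : MDifferentiableAt (𝓡∂ n) 𝓘(ℝ, Fib N) (fun m => f (xc n p m)) p := by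
        have h2 : MDifferentiableAt 𝓘(ℝ, E n) 𝓘(ℝ, Fib N) f (xc n p p) :=
          (hf2 z hzb).mdifferentiableAt
        have h3 : MDifferentiableAt (𝓡∂ n) 𝓘(ℝ, E n) (xc n p) p :=
          mdifferentiableAt_extChartAt (by rw [← extChartAt_source (𝓡∂ n)]; exact hms)
        exact h2.comp p h3
      exact h1.congr_of_eventuallyEq hev
    refine ⟨?_, hmd, ?_⟩
    · have h1 := hf1 z hzb
      rw [hzp] at h1
      rw [hsp]
      exact h1
    · refine cov_zero_of_coord Q.A s p fun j => ?_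
      have h1 := is_cov Q p (s := s) hzt (by rw [hzp]; exact hmd) j
      have h2 : nab (Q.loc p) j (lu (𝓡∂ n) p s) z = 0 := by
        unfold nab
        have h3 : pd j (lu (𝓡∂ n) p s) z = pd j f z := by
          rw [cRunge_pd (hbp hzb), cRunge_pd (hbp hzb)]
          have h4 : lu (𝓡∂ n) p s =ᶠ[𝓝 z] f := by
            filter_upwards [Metric.isOpen_ball.mem_nhds hzb] with y hy
            exact hsf y hy
          rw [h4.fderiv_eq]
        have h5 : lu (𝓡∂ n) p s z = f z := hsf z hzb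
        rw [h3, h5, hf3 z hzb j, neg_add_cancel]
      rw [h2, hzp] at h1
      exact h1.symm
  exact ⟨s, boot hW Q.A (fun x hx => (key x hx).2.1) (fun x hx => (key x hx).2.2),
    fun x hx => (key x hx).2.2, fun x hx => (key x hx).1⟩

end Vale.Agent.P088.EYM.O

end
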