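import Vale.Agent.P088.H5.I.Spec

/-!
# P088, Theorem I, block IT: a connected open set with closure in `O` which contains a compact set
-/

open Bundle Manifold MeasureTheory Set Filter Topology
open scoped ContDiff Matrix

noncomputable section

namespace Vale.Agent.P088.EYM.O

open Vale.Agent.P088 Vale.Agent.P088.EYM

universe u

namespace IT779

/-- In a locally connected regular space, every compact subset of a connected open set `O` lies in
a connected open set whose closure is contained in `O`. -/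
theorem exh {X : Type u} [TopologicalSpace X] [LocallyConnectedSpace X] [RegularSpace X]
    {O S : Set X} {p : X} (hO : IsOpen O) (hOp : IsPreconnected O) (hS : IsCompact S)
    (hSO : S ⊆ O) (hp : p ∈ O) :
    ∃ O' : Set X, IsOpen O' ∧ IsPreconnected O' ∧ closure O' ⊆ O ∧ S ⊆ O' ∧ p ∈ O' := by
  -- small connected neighbourhoods
  have hsm : ∀ x ∈ O, ∃ W : Set X, IsOpen W ∧ x ∈ W ∧ IsPreconnected W ∧ closure W ⊆ O := by
    intro x hx
    obtain ⟨K, hK, hKc, hKO⟩ := exists_mem_nhds_isClosed_subset (hO.mem_nhds hx)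
    obtain ⟨V, hVK, hVo, hxV, hVc⟩ :=
      locallyConnectedSpace_iff_subsets_isOpen_isConnected.1 ‹_› x K hK
    exact ⟨V, hVo, hxV, hVc.isPreconnected, (closure_minimal hVK hKc).trans hKO⟩
  set G : Set X := {x | ∃ W : Set X, IsOpen W ∧ IsPreconnected W ∧ closure W ⊆ O ∧ p ∈ W ∧ x ∈ W}
    with hG
  have hGo : IsOpen G := by
    rw [isOpen_iff_forall_mem_open]
    rintro x ⟨W, h1, h2, h3, h4, h5⟩
    exact ⟨W, fun y hy => ⟨W, h1, h2, h3, h4, hy⟩, h1, h5⟩
  have hGcl : ∀ x ∈ O, x ∈ closure G → x ∈ G := by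
    intro x hx hxG
    obtain ⟨W, hW1, hW2, hW3, hW4⟩ := hsm x hx
    obtain ⟨y, hyW, W', h1, h2, h3, h4, h5⟩ := mem_closure_iff.1 hxG W hW1 hW2
    exact ⟨W' ∪ W, h1.union hW1, h2.union y h5 hyW hW3, by
      rw [closure_union]
      exact union_subset h3 hW4, Or.inl h4, Or.inr hW2⟩
  have hpG : p ∈ G := by
    obtain ⟨W, hW1, hW2, hW3, hW4⟩ := hsm p hp
    exact ⟨W, hW1, hW3, hW4, hW2, hW2⟩
  have hOG : O ⊆ G := by
    have h1 := isPreconnected_iff_subset_of_disjoint.1 hOp G (closure G)ᶜ hGo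
      isClosed_closure.isOpen_compl (by
        intro x hx
        by_cases h : x ∈ closure G
        · exact Or.inl (hGcl x hx h)
        · exact Or.inr h) (by
        rw [eq_empty_iff_forall_notMem]
        rintro x ⟨-, h1, h2⟩
        exact h2 (subset_closure h1))
    rcases h1 with h1 | h1
    · exact h1
    · exact absurd (subset_closure hpG) (h1 hp)
  choose! W hWo hWp hWc hpW hxW using fun x (hx : x ∈ O) => hOG hx
  obtain ⟨t, htS, ht⟩ := hS.elim_nhds_subcover W fun x hx =>
    (hWo x (hSO hx)).mem_nhds (hxW x (hSO hx))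
  refine ⟨W p ∪ ⋃ x ∈ t, W x, ?_, ?_, ?_, ht.trans subset_union_right, Or.inl (hpW p hp)⟩
  · exact (hWo p hp).union (isOpen_biUnion fun x hx => hWo x (hSO (htS x hx)))
  · have e : W p ∪ ⋃ x ∈ t, W x = ⋃₀ (insert (W p) (W '' t)) := by
      rw [sUnion_insert, sUnion_image]
      rfl
    rw [e]
    refine isPreconnected_sUnion p _ ?_ ?_
    · rintro s (rfl | ⟨x, hx, rfl⟩)
      · exact hpW p hp
      · exact hpW x (hSO (htS x hx))
    · rintro s (rfl | ⟨x, hx, rfl⟩)
      · exact hWp p hp
      · exact hWp x (hSO (htS x hx))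
  · rw [closure_union, t.closure_biUnion]
    exact union_subset (hWc p hp) (iUnion₂_subset fun x hx => hWc x (hSO (htS x hx)))

end IT779

/-- (IT) -/
theorem iT : IT_statement.{u} := by
  intro n _ M _ _ _ _ _ O S p hO hOp hS hSO hp
  haveI : LocallyConnectedSpace M :=
    ChartedSpace.locallyConnectedSpace (EuclideanHalfSpace n) M
  exact IT779.exh hO hOp hS hSO hp

end Vale.Agent.P088.EYM.O

end
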