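import Vale.Agent.P088.H5.I.Spec
import Vale.Agent.P088.H5.MP849
import Vale.Agent.P088.H5.LE332

/-!
# P088, Theorem I: the energy of `χ u`
-/

set_option linter.all false

open Bundle Manifold MeasureTheory Set Filter Topology
open scoped ContDiff Matrix

noncomputable section

namespace Vale.Agent.P088.EYM.O

open Vale.Agent.P088 Vale.Agent.P088.EYM

universe u

section

variable {n N : ℕ} [NeZero n] {M : Type u} [TopologicalSpace M]
  [ChartedSpace (EuclideanHalfSpace n) M] [IsManifold (𝓡∂ n) ∞ M]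

theorem lA_inner (U a b : Fib N) (c d χ : ℝ) :
    (inner ℂ ((c : ℂ) • U + (χ : ℂ) • a) ((d : ℂ) • U + (χ : ℂ) • b) : ℂ).re =
      (inner ℂ a ((d : ℂ) • ((χ : ℂ) • U) + (χ : ℂ) • ((d : ℂ) • U + (χ : ℂ) • b)) : ℂ).re +
        c * d * ‖U‖ ^ 2 + χ * (c * (inner ℂ U b : ℂ).re - d * (inner ℂ U a : ℂ).re) := by
  have h1 : (inner ℂ a U : ℂ).re = (inner ℂ U a : ℂ).re := by
    rw [← inner_conj_symm]
    exact Complex.conj_re _
  have h2 : (inner ℂ U U : ℂ).re = ‖U‖ ^ 2 := by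
    rw [inner_self_eq_norm_sq_to_K]
    norm_cast
  simp only [inner_add_left, inner_add_right, inner_smul_left, inner_smul_right,
    Complex.conj_ofReal, Complex.add_re, Complex.re_ofReal_mul, h1, h2]
  ring

theorem lA_pt (g : Metric (𝓡∂ n) M) (A : Connection (𝓡∂ n) N M) {χ : M → ℝ} (hχ : SmR n χ)
    {u : M → Fib N} (hu : SmS n u) (x : M) :
    (pairing g A (fun x => (χ x : ℂ) • u x) (fun x => (χ x : ℂ) • u x) x).re =
      (pairing g A u (fun x => ((χ x ^ 2 : ℝ) : ℂ) • u x) x).re + gp g χ χ x * ‖u x‖ ^ 2 := by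
  have h0 : (fun x => ((χ x ^ 2 : ℝ) : ℂ) • u x) = fun x => (χ x : ℂ) • ((χ x : ℂ) • u x) := by
    funext y
    rw [smul_smul]
    push_cast
    ring_nf
  have h1 : ∀ i, covI A (fun x => (χ x : ℂ) • u x) x (es n i) =
      ((dd χ x i : ℝ) : ℂ) • u x + (χ x : ℂ) • covI A u x (es n i) := fun i => by
    rw [covI_mul A hχ hu, dd_eq]
  have h2 : ∀ i, covI A (fun x => (χ x : ℂ) • ((χ x : ℂ) • u x)) x (es n i) =
      ((dd χ x i : ℝ) : ℂ) • ((χ x : ℂ) • u x) + (χ x : ℂ) •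
        (((dd χ x i : ℝ) : ℂ) • u x + (χ x : ℂ) • covI A u x (es n i)) := fun i => by
    rw [covI_mul A hχ (smS_mul hχ hu), h1, dd_eq]
  rw [h0, pairing_eq_rp, pairing_eq_rp]
  unfold rp gp
  simp only [h1, h2, Complex.re_sum, Complex.real_smul, Complex.re_ofReal_mul, lA_inner]
  have hsym : ∑ i, ∑ j, (gram g x x)⁻¹ i j * (dd χ x i * (inner ℂ (u x) (covI A u x (es n j)) : ℂ).re) =
      ∑ i, ∑ j, (gram g x x)⁻¹ i j * (dd χ x j * (inner ℂ (u x) (covI A u x (es n i)) : ℂ).re) := by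
    rw [Finset.sum_comm]
    refine Finset.sum_congr rfl fun i _ => Finset.sum_congr rfl fun j _ => ?_
    rw [gram_inv_symm g x j i]
  have hsum : ∀ f1 f2 f3 f4 : Fin n → Fin n → ℝ,
      ∑ i, ∑ j, (gram g x x)⁻¹ i j * (f1 i j + f2 i j * ‖u x‖ ^ 2 + χ x * (f3 i j - f4 i j)) =
        ∑ i, ∑ j, (gram g x x)⁻¹ i j * f1 i j +
          (∑ i, ∑ j, (gram g x x)⁻¹ i j * f2 i j) * ‖u x‖ ^ 2 +
          χ x * (∑ i, ∑ j, (gram g x x)⁻¹ i j * f3 i j - ∑ i, ∑ j, (gram g x x)⁻¹ i j * f4 i j) := by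
    intro f1 f2 f3 f4
    simp only [Finset.sum_mul, Finset.mul_sum, ← Finset.sum_add_distrib, ← Finset.sum_sub_distrib]
    refine Finset.sum_congr rfl fun i _ => Finset.sum_congr rfl fun j _ => ?_
    ring
  rw [hsum, hsym, sub_self, mul_zero, add_zero]

end

theorem lA (n N : ℕ) [NeZero n] (M : Type u) [TopologicalSpace M]
    [ChartedSpace (EuclideanHalfSpace n) M] [IsManifold (𝓡∂ n) ∞ M] [T2Space M] [CompactSpace M]
    [ConnectedSpace M] [MeasurableSpace M] [BorelSpace M] (Q : One n N M) (χ : M → ℝ)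
    (u : M → Fib N) (hχ : SmR n χ) (hu : SmS n u) :
    (Q.E (fun x => (χ x : ℂ) • u x) (fun x => (χ x : ℂ) • u x)).re =
      (Q.E u (fun x => ((χ x ^ 2 : ℝ) : ℂ) • u x)).re + ∫ x, gp Q.g χ χ x * ‖u x‖ ^ 2 ∂Q.μ := by
  have hfin := (TM.fInt n N M Q).1
  have hχu := smS_mul hχ hu
  have hχ2u : SmS n (fun x => ((χ x ^ 2 : ℝ) : ℂ) • u x) := by
    have h2 : SmR n (fun x => χ x ^ 2) := ContMDiff.pow hχ 2
    exact smS_mul h2 hu
  have i1 : Integrable (pairing Q.g Q.A (fun x => (χ x : ℂ) • u x) (fun x => (χ x : ℂ) • u x))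
      Q.μ := integrable_of_continuous (continuous_pairing Q.g Q.A hχu hχu)
  have i2 : Integrable (pairing Q.g Q.A u (fun x => ((χ x ^ 2 : ℝ) : ℂ) • u x)) Q.μ :=
    integrable_of_continuous (continuous_pairing Q.g Q.A hu hχ2u)
  have i3 : Integrable (fun x => gp Q.g χ χ x * ‖u x‖ ^ 2) Q.μ :=
    integrable_of_continuous ((gp_cont Q.g hχ hχ).mul (hu.continuous.norm.pow 2))
  have e1 : (Q.E (fun x => (χ x : ℂ) • u x) (fun x => (χ x : ℂ) • u x)).re =
      ∫ x, (pairing Q.g Q.A (fun x => (χ x : ℂ) • u x) (fun x => (χ x : ℂ) • u x) x).re ∂Q.μ :=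
    (integral_re (𝕜 := ℂ) i1).symm
  have e2 : (Q.E u (fun x => ((χ x ^ 2 : ℝ) : ℂ) • u x)).re =
      ∫ x, (pairing Q.g Q.A u (fun x => ((χ x ^ 2 : ℝ) : ℂ) • u x) x).re ∂Q.μ :=
    (integral_re (𝕜 := ℂ) i2).symm
  have i4 : Integrable (fun x => (pairing Q.g Q.A u (fun x => ((χ x ^ 2 : ℝ) : ℂ) • u x) x).re)
      Q.μ := i2.re
  rw [e1, e2, ← integral_add i4 i3]
  exact integral_congr_ae (Eventually.of_forall fun x => lA_pt Q.g Q.A hχ hu x)

end Vale.Agent.P088.EYM.O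

end
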