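import Vale.Agent.P088.H5.I.I9_435
import Vale.Agent.P088.H5.I.IT779
import Vale.Agent.P088.H5.I.IL823
import Vale.Agent.P088.H5.I.IR849
import Vale.Agent.P088.H5.I.IE332
import Vale.Agent.P088.H5.I.IS590
import Vale.Agent.P088.H5.I.LA124

/-!
# P088, Theorem I, closed
-/

namespace Vale.Agent.P088.EYM.O

universe u

theorem i9_closed : I9_statement.{u} :=
  i9 iT (iR iL) iE iS lA

end Vale.Agent.P088.EYM.O
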