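import Vale.Agent.P088.H5.I.Br275
import Vale.Agent.P088.H5.I.Clos435
import Vale.Agent.P088.H5.Q1_332
import Vale.Agent.P088.H5.St5

/-!
# P088, Theorem I: connections which agree off a compact set in the interior
-/

open Bundle Manifold MeasureTheory Set Filter
open scoped ContDiff Matrix Topology ENNReal

noncomputable section

set_option linter.all false

namespace Vale.Agent.P088.B7

open Vale.Agent.P088 Vale.Agent.P088.B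

open Vale.Agent.P088.B5 (ParOn PureOn)

universe u

/-- `P` is a transform of `P₀`, the connections of `P` and `Q` are gauge equivalent off a compact
set `K` in the interior with connected complement, and their metrics are piecewise ordered on (a
dense subset of) the complement of `K`. -/
theorem holesP (h9 : EYM.O.I9_statement.{u}) {n N : ℕ} [NeZero n] (hn : 3 ≤ n) (hN : 1 ≤ N)
    {M : Type u} [TopologicalSpace M] [ChartedSpace (EuclideanHalfSpace n) M]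
    [IsManifold (𝓡∂ n) ∞ M] [T2Space M] [CompactSpace M] [ConnectedSpace M] (Z : B.At n M)
    (hZ : Z = at_ n M) (Γ O : Set M) (hO : IsOpen O) (hΓ : Γ = O ∩ bd Z) (hne : Γ.Nonempty)
    (P₀ P Q : B.Pair Z N) (hS : B.SameData Γ P₀ Q) (hR : Related Γ P₀ P) (K V W₁ : Set M)
    (hK : IsClosed K) (hKb : K ∩ bd Z = ∅) (hKc : IsPreconnected Kᶜ) (hV : IsOpen V)
    (hKV : K ⊆ V) (hW₁ : W₁ ⊆ Kᶜ) (hd₁ : Kᶜ ⊆ closure W₁) (hp₁ : PwLe W₁ Γ P Q)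
    (U₀ : M → Matrix (Fin N) (Fin N) ℂ) (hU₀ : GaugeBy U₀ Kᶜ Γ P.A Q.A Z) :
    (∀ x ∉ K, Q.g x = P.g x) ∧
      (∀ e, ParOn V P e → ∃ e', ParOn V Q e' ∧ ∀ x ∉ K, e x = U₀ x *ᵥ e' x) ∧
      (PureOn V P.A Z → (∃ U, GaugeBy U univ Γ P.A Q.A Z ∧ ∀ x ∉ K, U x = U₀ x) ∧
        ((∃ W, closure W = univ ∧ PwLe W Γ P Q) → Related Γ P₀ Q)) := by
  have hS' : B.SameData Γ P Q := B.same_related Z hZ hO hΓ hne hR hS
  have hg : ∀ x ∉ K, Q.g x = P.g x := by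
    obtain ⟨h1, h2, h3⟩ := hp₁
    have h4 := (B5.smooth_local hn hN Z hZ Γ O hO hΓ P Q hS' W₁ h1 h2 U₀
      ⟨hU₀.1, hU₀.2.1, fun x hx => hU₀.2.2.1 x hx.2, fun x hx => hU₀.2.2.2 x (hW₁ hx)⟩ h3).1
    exact fun x hx => h4 x (hd₁ hx)
  obtain ⟨a1, a2⟩ := B5.holes h9 (by omega) Z hZ Γ O hO hΓ hne P Q hS' K V hK hKb hKc U₀ hU₀ hg hV
    hKV
  refine ⟨hg, a1, fun hp => ?_⟩
  obtain ⟨U, hU, hUK⟩ := a2 hp
  refine ⟨⟨U, hU, hUK⟩, ?_⟩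
  rintro ⟨W, hWd, hWo, hWc, hpW⟩
  have h3 := (B5.smooth_local hn hN Z hZ Γ O hO hΓ P Q hS' W hWo hWc U
    ⟨hU.1, hU.2.1, fun x hx => hU.2.2.1 x hx.2, fun x _ => hU.2.2.2 x (mem_univ x)⟩ hpW).1
  subst hZ
  exact B5.related_of hR hU (funext fun x => h3 x (by rw [hWd]; exact mem_univ x))

/-- `holesP`, closed. -/
theorem holesP_closed {n N : ℕ} [NeZero n] (hn : 3 ≤ n) (hN : 1 ≤ N)
    {M : Type u} [TopologicalSpace M] [ChartedSpace (EuclideanHalfSpace n) M]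
    [IsManifold (𝓡∂ n) ∞ M] [T2Space M] [CompactSpace M] [ConnectedSpace M] (Z : B.At n M)
    (hZ : Z = at_ n M) (Γ O : Set M) (hO : IsOpen O) (hΓ : Γ = O ∩ bd Z) (hne : Γ.Nonempty)
    (P₀ P Q : B.Pair Z N) (hS : B.SameData Γ P₀ Q) (hR : Related Γ P₀ P) (K V W₁ : Set M)
    (hK : IsClosed K) (hKb : K ∩ bd Z = ∅) (hKc : IsPreconnected Kᶜ) (hV : IsOpen V)
    (hKV : K ⊆ V) (hW₁ : W₁ ⊆ Kᶜ) (hd₁ : Kᶜ ⊆ closure W₁) (hp₁ : PwLe W₁ Γ P Q)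
    (U₀ : M → Matrix (Fin N) (Fin N) ℂ) (hU₀ : GaugeBy U₀ Kᶜ Γ P.A Q.A Z) :
    (∀ x ∉ K, Q.g x = P.g x) ∧
      (∀ e, ParOn V P e → ∃ e', ParOn V Q e' ∧ ∀ x ∉ K, e x = U₀ x *ᵥ e' x) ∧
      (PureOn V P.A Z → (∃ U, GaugeBy U univ Γ P.A Q.A Z ∧ ∀ x ∉ K, U x = U₀ x) ∧
        ((∃ W, closure W = univ ∧ PwLe W Γ P Q) → Related Γ P₀ Q)) :=
  holesP EYM.O.i9_closed hn hN Z hZ Γ O hO hΓ hne P₀ P Q hS hR K V W₁ hK hKb hKc hV hKV hW₁ hd₁ hp₁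
    U₀ hU₀

end Vale.Agent.P088.B7

end
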