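import Vale.Agent.P088.H5.St4

/-!
# P088: parallel sections and pure gauge connections on an open set
-/

open Manifold MeasureTheory Set
open scoped ContDiff Matrix

noncomputable section

namespace Vale.Agent.P088.B5

open Vale.Agent.P088.B

universe u

variable {n N : ℕ} {M : Type u} {Z : At n M}

/-- `e : V → ℂ^N` is smooth and parallel: `∂_i e + A_i e = 0` on `V`. -/
def ParOn (V : Set M) (P : Pair Z N) (e : M → Fin N → ℂ) : Prop :=
  (∀ a, Z.sm V (fun x => e x a)) ∧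
    ∀ x ∈ V, ∀ i a, dj (fun y => e (pt Z x y) a) (Z.ch x x) i + (P.A x i *ᵥ e x) a = 0

/-- `A = E⁻¹ dE` on `V` for a smooth `E : V → U(N)`. -/
def PureOn (V : Set M) (A : M → Fin n → Matrix (Fin N) (Fin N) ℂ) (Z : At n M) : Prop :=
  ∃ E : M → Matrix (Fin N) (Fin N) ℂ, (∀ a b, Z.sm V (fun x => E x a b)) ∧
    ∀ x ∈ V, (E x)ᴴ * E x = 1 ∧
      ∀ j, A x j = (E x)ᴴ * dM (fun y => E (pt Z x y)) (Z.ch x x) j

end Vale.Agent.P088.B5
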