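import Vale.Agent.P088.H5.I.Fr2_275
import Vale.Agent.P088.H5.I.St275
import Vale.Agent.P088.H5.BrS275
import Vale.Agent.P088.H5.Br820

/-!
# P088, Theorem I: from the abstract theorem to the elementary statement
-/

set_option linter.all false

open Bundle Manifold MeasureTheory Set Filter
open scoped ContDiff Matrix Topology ENNReal

noncomputable section

namespace Vale.Agent.P088.B5

open Vale.Agent.P088 Vale.Agent.P088.B

universe u

section

variable {n : ℕ} [NeZero n] {N : ℕ} {M : Type u} [TopologicalSpace M]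
  [ChartedSpace (EuclideanHalfSpace n) M] [IsManifold (𝓡∂ n) ∞ M]

theorem smOn_toF {V : Set M} {e : M → Fin N → ℂ}
    (h : ∀ a, (at_ n M).sm V (fun x => e x a)) :
    ContMDiffOn (𝓡∂ n) 𝓘(ℝ, Fib N) ∞ (S.toF e) V := by
  have h1 : S.toF e = fun x => ∑ a, S.csm (eN N a) (e x a) := by
    funext x
    rw [eN_expand (S.toF e x)]
    rfl
  rw [h1]
  refine contMDiffOn_finsetSum fun a _ => ?_
  exact (S.csm _).contDiff.contMDiff.comp_contMDiffOn (h a)

theorem smOn_ofF {V : Set M} {e : M → Fib N} (h : ContMDiffOn (𝓡∂ n) 𝓘(ℝ, Fib N) ∞ e V)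
    (a : Fin N) : (at_ n M).sm V (fun x => e x a) :=
  ((EuclideanSpace.proj (𝕜 := ℂ) a : Fib N →L[ℂ] ℂ).restrictScalars
    ℝ).contDiff.contMDiff.comp_contMDiffOn h

theorem covI_loc (P : B.Pair (at_ n M) N) {e : M → Fin N → ℂ} {x : M}
    (he : MDifferentiableAt (𝓡∂ n) 𝓘(ℝ, Fib N) (S.toF e) x) (i : Fin n) :
    covI (S.connOf (conv P)) (S.toF e) x (es n i) =
      WithLp.toLp 2 (Vale.Agent.P088.S.cov (conv P) e x i) := by
  have h0 : dI (𝓡∂ n) (S.toF e) x (es n i) =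
      WithLp.toLp 2 (fun a => S.pd n (fun z => e z a) x i) := by
    ext a
    have hd : MDifferentiableAt (𝓡∂ n) 𝓘(ℝ, ℂ) (fun z => e z a) x :=
      (((EuclideanSpace.proj (𝕜 := ℂ) a : Fib N →L[ℂ] ℂ).restrictScalars
        ℝ).differentiable.mdifferentiable (S.toF e x)).comp x he
    have h1 := EYM.O.dmap_clm ((EuclideanSpace.proj (𝕜 := ℂ) a : Fib N →L[ℂ] ℂ).restrictScalars ℝ)
      he (es n i)
    have h2 : S.pd n (fun z => e z a) x i = dI (𝓡∂ n) (fun z => e z a) x (es n i) :=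
      S.pd_eq hd i
    show (dI (𝓡∂ n) (S.toF e) x (es n i)) a = S.pd n (fun z => e z a) x i
    rw [h2]
    exact h1.symm
  rw [covI_eq, h0, S.connOf_es]
  rfl

theorem parOn_to {P : B.Pair (at_ n M) N} {V : Set M} (hV : IsOpen V) {e : M → Fin N → ℂ}
    (h : ParOn V P e) : ContMDiffOn (𝓡∂ n) 𝓘(ℝ, Fib N) ∞ (S.toF e) V ∧
      ∀ x ∈ V, ∀ X : TangentSpace (𝓡∂ n) x, cov (S.connOf (conv P)) (S.toF e) x X = 0 := by
  have hs := smOn_toF h.1
  refine ⟨hs, fun x hx X => ?_⟩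
  have hd : MDifferentiableAt (𝓡∂ n) 𝓘(ℝ, Fib N) (S.toF e) x :=
    (hs.contMDiffAt (hV.mem_nhds hx)).mdifferentiableAt (by simp)
  have key : ∀ (X : EuclideanSpace ℝ (Fin n)), covI (S.connOf (conv P)) (S.toF e) x X = 0 := by
    intro X
    rw [B2.covI_exp]
    refine Finset.sum_eq_zero fun i _ => ?_
    rw [covI_loc P hd]
    have h3 : Vale.Agent.P088.S.cov (conv P) e x i = 0 := by
      funext a
      rw [← brst2_cov]
      exact h.2 x hx i a
    rw [h3]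
    simp
  exact key X

theorem parOn_of {P : B.Pair (at_ n M) N} {V : Set M} (hV : IsOpen V) {e : M → Fib N}
    (h : ContMDiffOn (𝓡∂ n) 𝓘(ℝ, Fib N) ∞ e V)
    (hp : ∀ x ∈ V, ∀ X : TangentSpace (𝓡∂ n) x, cov (S.connOf (conv P)) e x X = 0) :
    ParOn V P (fun x a => e x a) := by
  refine ⟨smOn_ofF h, fun x hx i a => ?_⟩
  have hd : MDifferentiableAt (𝓡∂ n) 𝓘(ℝ, Fib N) (S.toF fun x a => e x a) x :=
    (h.contMDiffAt (hV.mem_nhds hx)).mdifferentiableAt (by simp)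
  refine (brst2_cov P (fun x a => e x a) x i a).trans ?_
  have h3 : covI (S.connOf (conv P)) (S.toF fun x a => e x a) x (es n i) = 0 := hp x hx (es n i)
  rw [covI_loc P hd] at h3
  have h4 : Vale.Agent.P088.S.cov (conv P) (fun x a => e x a) x i = 0 :=
    (WithLp.toLp_injective 2) (h3.trans (WithLp.toLp_zero 2).symm)
  rw [h4]
  rfl

theorem toE_dM_loc {E : M → Matrix (Fin N) (Fin N) ℂ} {x : M}
    (hE : MDifferentiableAt (𝓡∂ n) 𝓘(ℝ, EndF N) (fun y => S.toE (E y)) x) (j : Fin n) :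
    S.toE (dM (fun y => E (pt (at_ n M) x y)) ((at_ n M).ch x x) j) =
      dI (𝓡∂ n) (fun y => S.toE (E y)) x (es n j) := by
  have h1 : dM (fun y => E (pt (at_ n M) x y)) ((at_ n M).ch x x) j =
      S.ofE (dI (𝓡∂ n) (fun y => S.toE (E y)) x (es n j)) := by
    ext a b
    have h2 : (fun z => S.ent a b (S.toE (E z))) = fun z => E z a b := by
      funext z
      exact congrFun (congrFun (S.ofE_toE (E z)) a) b
    have h3 := EYM.O.dmap_clm (S.ent a b) hE (es n j)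
    have hd : MDifferentiableAt (𝓡∂ n) 𝓘(ℝ, ℂ) (fun z => E z a b) x := by
      rw [← h2]
      exact ((S.ent a b).differentiable.mdifferentiable (S.toE (E x))).comp x hE
    have h4 : S.pd n (fun z => E z a b) x j = dI (𝓡∂ n) (fun z => E z a b) x (es n j) :=
      S.pd_eq hd j
    have h5 : dj (fun y => E (pt (at_ n M) x y) a b) ((at_ n M).ch x x) j =
        S.pd n (fun z => E z a b) x j :=
      dj_old (fun y => E (pt (at_ n M) x y) a b) (at_nonneg x x) j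
    show dj (fun y => E (pt (at_ n M) x y) a b) ((at_ n M).ch x x) j = _
    rw [h5, h4]
    rw [h2] at h3
    exact h3
  rw [h1, S.toE_ofE]

/-- From `A = E⁻¹ dE` to a parallel unitary frame. -/
theorem frame_of_pure {A : M → Fin n → Matrix (Fin N) (Fin N) ℂ} {V : Set M} (hV : IsOpen V)
    (h : PureOn V A (at_ n M)) : ∃ E : M → EndF N, ContMDiffOn (𝓡∂ n) 𝓘(ℝ, EndF N) ∞ E V ∧
      (∀ x ∈ V, E x ∈ unitary (EndF N)) ∧ ∀ x ∈ V, ∀ X : TangentSpace (𝓡∂ n) x,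
        dmap (𝓡∂ n) E x X + S.formOf (A x) X * E x = 0 := by
  obtain ⟨E₀, h1, h2⟩ := h
  set W : M → EndF N := fun x => S.toE (E₀ x) with hW
  have hWs : ContMDiffOn (𝓡∂ n) 𝓘(ℝ, EndF N) ∞ W V := S.contMDiffOn_toE h1
  have hWd : ∀ x ∈ V, MDifferentiableAt (𝓡∂ n) 𝓘(ℝ, EndF N) W x := fun x hx =>
    (hWs.contMDiffAt (hV.mem_nhds hx)).mdifferentiableAt (by simp)
  have e3 : ∀ x ∈ V, ContinuousLinearMap.adjoint (W x) * W x = 1 := by
    intro x hx
    have e3 := congrArg S.toE (h2 x hx).1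
    rw [S.toE_mul, S.toE_star, S.toE_one] at e3
    exact e3
  have e4 : ∀ x ∈ V, W x * ContinuousLinearMap.adjoint (W x) = 1 := by
    intro x hx
    have e5 := congrArg S.toE (mul_eq_one_comm.1 (h2 x hx).1)
    rw [S.toE_mul, S.toE_star, S.toE_one] at e5
    exact e5
  refine ⟨fun x => EYM.adjRE (W x), EYM.adjRE.contMDiff.comp_contMDiffOn hWs,
    fun x hx => Unitary.star_mem (Unitary.mem_iff.2 ⟨e3 x hx, e4 x hx⟩), fun x hx X => ?_⟩
  have hadj : MDifferentiableAt (𝓡∂ n) 𝓘(ℝ, EndF N) (fun y => EYM.adjRE (W y)) x :=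
    (EYM.adjRE.differentiable.mdifferentiable (W x)).comp x (hWd x hx)
  -- the derivative of `W W* = 1`
  have h3 : W x * ContinuousLinearMap.adjoint (dmap (𝓡∂ n) W x X) +
      dmap (𝓡∂ n) W x X * ContinuousLinearMap.adjoint (W x) = 0 := by
    have hev : (fun y => EYM.O.mulL (W y) (EYM.adjRE (W y))) =ᶠ[𝓝 x] fun _ => (1 : EndF N) := by
      filter_upwards [hV.mem_nhds hx] with y hy using e4 y hy
    have h5 : dmap (𝓡∂ n) (fun y => EYM.O.mulL (W y) (EYM.adjRE (W y))) x X = 0 := by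
      have h6 : dmap (𝓡∂ n) (fun y => EYM.O.mulL (W y) (EYM.adjRE (W y))) x = 0 := by
        unfold dmap
        rw [hev.mfderiv_eq]
        exact mfderiv_const
      rw [h6]
      rfl
    rw [EYM.O.dmap_bilin EYM.O.mulL (hWd x hx) hadj X, EYM.O.dmap_adj (hWd x hx) X] at h5
    rw [add_comm]
    exact h5
  -- the form
  have hA : S.formOf (A x) X = ContinuousLinearMap.adjoint (W x) * dmap (𝓡∂ n) W x X := by
    let LA : EndF N →L[ℝ] EndF N :=
      ((ContinuousLinearMap.mul ℝ (EndF N)) (ContinuousLinearMap.adjoint (W x)))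
    have hT : S.formOf (A x) = LA.comp (dI (𝓡∂ n) W x) := by
      refine ext_es fun i => ?_
      rw [formOf_es, (h2 x hx).2 i, S.toE_mul, S.toE_star, toE_dM_loc (hWd x hx) i]
      rfl
    exact DFunLike.congr_fun hT (X : EuclideanSpace ℝ (Fin n))
  rw [EYM.O.dmap_adj (hWd x hx) X, hA]
  have h7 := EYM.O.alg_b1 (R := EndF N) (E := 1) (p := 0) (dE := -(0 * 1)) (e4 x hx) (e3 x hx) h3
    rfl
  have h8 : ContinuousLinearMap.adjoint (dmap (𝓡∂ n) W x X) * 1 +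
      ContinuousLinearMap.adjoint (W x) * (-(0 * 1)) +
      (ContinuousLinearMap.adjoint (W x) * (0 * W x) +
        ContinuousLinearMap.adjoint (W x) * dmap (𝓡∂ n) W x X) *
        (ContinuousLinearMap.adjoint (W x) * 1) = 0 := h7
  simp only [mul_one, zero_mul, neg_zero, mul_zero, add_zero, zero_add] at h8
  exact h8

theorem gaugeBy_of {Γ : Set M} {a b : M → Fin n → Matrix (Fin N) (Fin N) ℂ} {V : M → EndF N}
    (hV : IsSmoothUnitary (𝓡∂ n) V) (h1 : ∀ x ∈ Γ, V x = 1)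
    (h2 : ∀ (x : M) (X : TangentSpace (𝓡∂ n) x),
        S.formOf (b x) X = ContinuousLinearMap.adjoint (V x) ∘L S.formOf (a x) X ∘L V x +
          ContinuousLinearMap.adjoint (V x) ∘L dmap (𝓡∂ n) V x X) :
    GaugeBy (fun x => S.ofE (V x)) univ Γ a b (at_ n M) := by
  refine ⟨(S.uni_ofE hV).1, (S.uni_ofE hV).2, fun x hx => ?_, fun x _ j => ?_⟩
  · apply S.toE_inj
    rw [S.toE_ofE, S.toE_one, h1 x hx]
  · apply S.toE_inj
    rw [S.toE_mul, S.toE_star, S.toE_add, S.toE_mul, S.toE_ofE, toE_dM hV x j, mul_add,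
      ← formOf_es (b x) j, ← formOf_es (a x) j]
    exact h2 x (es n j)

end

/-- Theorem I, elementary form. -/
theorem holes (h9 : EYM.O.I9_statement.{u}) {n N : ℕ} [NeZero n] (hn : 2 ≤ n) {M : Type u}
    [TopologicalSpace M] [ChartedSpace (EuclideanHalfSpace n) M] [IsManifold (𝓡∂ n) ∞ M]
    [T2Space M] [CompactSpace M] [ConnectedSpace M] (Z : B.At n M) (hZ : Z = at_ n M)
    (Γ O : Set M) (hO : IsOpen O) (hΓ : Γ = O ∩ bd Z) (hne : Γ.Nonempty) (P Q : B.Pair Z N)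
    (hd : B.SameData Γ P Q) (K V : Set M) (hK : IsClosed K) (hKb : K ∩ bd Z = ∅)
    (hKc : IsPreconnected Kᶜ) (U₀ : M → Matrix (Fin N) (Fin N) ℂ)
    (hU₀ : GaugeBy U₀ Kᶜ Γ P.A Q.A Z) (hg : ∀ x ∉ K, Q.g x = P.g x) (hV : IsOpen V)
    (hKV : K ⊆ V) :
    (∀ e, ParOn V P e → ∃ e', ParOn V Q e' ∧ ∀ x ∉ K, e x = U₀ x *ᵥ e' x) ∧
      (PureOn V P.A Z → ∃ U, GaugeBy U univ Γ P.A Q.A Z ∧ ∀ x ∉ K, U x = U₀ x) := by
  subst hZ
  have hb : bd (at_ n M) = (𝓡∂ n).boundary M := bd_at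
  let _ : MeasurableSpace M := borel M
  have _ : BorelSpace M := ⟨rfl⟩
  have hS : EYM.SameD (B2.one P) (B2.one Q) Γ := B.sameD_one hd
  have hR : EYM.RelBd n Γ := ⟨O, hO, by rw [hΓ, hb]⟩
  obtain ⟨hV₀, hV1, hV2⟩ := toGaugeBy hU₀
  have hΓb : Γ ⊆ (𝓡∂ n).boundary M := by rw [hΓ, hb]; exact inter_subset_right
  have hbK : (𝓡∂ n).boundary M ⊆ Kᶜ := fun x hx hxK => by
    have : x ∈ K ∩ bd (at_ n M) := ⟨hxK, by rw [hb]; exact hx⟩
    rw [hKb] at this
    exact this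
  have hOΓ : (Kᶜ ∩ Γ).Nonempty := hne.mono fun x hx => ⟨hbK (hΓb hx), hx⟩
  have hmet : ∀ x ∈ Kᶜ, ∀ v w : TangentSpace (𝓡∂ n) x,
      (B2.one Q).g.inner x v w = (B2.one P).g.inner x v w := by
    intro x hx v w
    have h1 := hg x hx
    show S.bil ((conv Q).mat x) v w = S.bil ((conv P).mat x) v w
    have h2 : (conv Q).mat x = (conv P).mat x := h1
    rw [h2]
  refine ⟨fun e he => ?_, fun hp => ?_⟩
  · obtain ⟨h1, h2⟩ := parOn_to hV he
    obtain ⟨e', h3, h4, h5⟩ := EYM.O.i9_sec h9 n N M (B2.one P) (B2.one Q) Γ Kᶜ V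
      (fun x => S.toE (U₀ x)) hV₀ hV1 hn hR hS hK.isOpen_compl hKc hOΓ hbK hV2 hmet hV
      (by rw [compl_compl]; exact hKV) (S.toF e) h1 h2
    refine ⟨fun x a => e' x a, parOn_of hV h3 h4, fun x hx => ?_⟩
    have h6 := h5 x hx
    have h8 : WithLp.toLp 2 (U₀ x *ᵥ fun a => e' x a) = S.toF e x := by
      rw [← h6]
      exact (S.toE_apply (U₀ x) fun a => e' x a).symm
    exact (congrArg WithLp.ofLp h8).symm
  · obtain ⟨E, h1, h2, h3⟩ := frame_of_pure hV hp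
    obtain ⟨U, h4, h5, h6⟩ := EYM.O.i9_uni h9 n N M (B2.one P) (B2.one Q) Γ Kᶜ V
      (fun x => S.toE (U₀ x)) hV₀ hV1 hn hR hS hK.isOpen_compl hKc hOΓ hbK hV2 hmet hV
      (by rw [compl_compl]; exact hKV) E h1 h2 h3
    refine ⟨fun x => S.ofE (U x), gaugeBy_of h4 (fun x hx => ?_) h6, fun x hx => ?_⟩
    · rw [h5 x (hbK (hΓb hx))]
      exact hV1 x hx
    · show S.ofE (U x) = U₀ x
      rw [h5 x hx, S.ofE_toE]

end Vale.Agent.P088.B5

end
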