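import Vale.Agent.P088.H5.I.ElemI275
import Vale.Agent.P088.H5.I.Clos435

/-!
# P088, Theorem I, elementary form, closed
-/

set_option linter.all false

open Bundle Manifold MeasureTheory Set Filter
open scoped ContDiff Matrix Topology ENNReal

noncomputable section

namespace Vale.Agent.P088.B5

open Vale.Agent.P088 Vale.Agent.P088.B

universe u

/-- Theorem I, elementary form. -/
theorem elemI {n N : ℕ} [NeZero n] (hn : 2 ≤ n) {M : Type u}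
    [TopologicalSpace M] [ChartedSpace (EuclideanHalfSpace n) M] [IsManifold (𝓡∂ n) ∞ M]
    [T2Space M] [CompactSpace M] [ConnectedSpace M] (Z : B.At n M) (hZ : Z = at_ n M)
    (Γ O₀ : Set M) (hO₀ : IsOpen O₀) (hΓ : Γ = O₀ ∩ bd Z) (P Q : B.Pair Z N)
    (hd : B.SameData Γ P Q) (O V : Set M) (hO : IsOpen O) (hOc : IsPreconnected O)
    (hOΓ : (O ∩ Γ).Nonempty) (hbO : bd Z ⊆ O) (U : M → Matrix (Fin N) (Fin N) ℂ)
    (hU : GaugeBy U O Γ P.A Q.A Z) (hg : ∀ x ∈ O, Q.g x = P.g x) (hV : IsOpen V)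
    (hOV : Oᶜ ⊆ V) (U₁ : M → Matrix (Fin N) (Fin N) ℂ) (hU₁ : GaugeBy U₁ V ∅ 0 P.A Z) :
    ∃ U', GaugeBy U' univ Γ P.A Q.A Z ∧ ∀ x ∈ O, U' x = U x :=
  elemI_of EYM.O.i9_closed hn Z hZ Γ O₀ hO₀ hΓ P Q hd O V hO hOc hOΓ hbO U hU hg hV hOV U₁ hU₁

/-- Theorem I, elementary form, all conclusions: parallel sections over `V ⊇ K` are determined, and
a pure gauge connection over `V` is determined up to gauge. -/
theorem holes_closed {n N : ℕ} [NeZero n] (hn : 2 ≤ n) {M : Type u}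
    [TopologicalSpace M] [ChartedSpace (EuclideanHalfSpace n) M] [IsManifold (𝓡∂ n) ∞ M]
    [T2Space M] [CompactSpace M] [ConnectedSpace M] (Z : B.At n M) (hZ : Z = at_ n M)
    (Γ O : Set M) (hO : IsOpen O) (hΓ : Γ = O ∩ bd Z) (hne : Γ.Nonempty) (P Q : B.Pair Z N)
    (hd : B.SameData Γ P Q) (K V : Set M) (hK : IsClosed K) (hKb : K ∩ bd Z = ∅)
    (hKc : IsPreconnected Kᶜ) (U₀ : M → Matrix (Fin N) (Fin N) ℂ)
    (hU₀ : GaugeBy U₀ Kᶜ Γ P.A Q.A Z) (hg : ∀ x ∉ K, Q.g x = P.g x) (hV : IsOpen V)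
    (hKV : K ⊆ V) :
    (∀ e, ParOn V P e → ∃ e', ParOn V Q e' ∧ ∀ x ∉ K, e x = U₀ x *ᵥ e' x) ∧
      (PureOn V P.A Z → ∃ U, GaugeBy U univ Γ P.A Q.A Z ∧ ∀ x ∉ K, U x = U₀ x) :=
  holes EYM.O.i9_closed hn Z hZ Γ O hO hΓ hne P Q hd K V hK hKb hKc U₀ hU₀ hg hV hKV

end Vale.Agent.P088.B5
end
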