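import Vale.Agent.P088.H5.I.Br275
import Vale.Agent.P088.H5.I.I9_435
import Vale.Agent.P088.H5.I.IT779
import Vale.Agent.P088.H5.I.IE332
import Vale.Agent.P088.H5.I.IS590
import Vale.Agent.P088.H5.I.LA124
import Vale.Agent.P088.H5.St5

/-!
# P088, Theorem I, elementary form: holes with trivial connection
-/

set_option linter.all false

open Bundle Manifold MeasureTheory Set Filter
open scoped ContDiff Matrix Topology ENNReal

noncomputable section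

namespace Vale.Agent.P088.B5

open Vale.Agent.P088 Vale.Agent.P088.B

universe u

theorem pureOn_of {n N : ℕ} [NeZero n] {M : Type u} [TopologicalSpace M]
    [ChartedSpace (EuclideanHalfSpace n) M] [IsManifold (𝓡∂ n) ∞ M]
    {U : M → Matrix (Fin N) (Fin N) ℂ} {V : Set M}
    {A : M → Fin n → Matrix (Fin N) (Fin N) ℂ} (h : GaugeBy U V ∅ 0 A (at_ n M)) :
    PureOn V A (at_ n M) := by
  obtain ⟨h1, h2, h3, h4⟩ := h
  refine ⟨U, fun a b => (h1 a b).mono (subset_univ V), fun x hx => ⟨h2 x, fun j => ?_⟩⟩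
  rw [h4 x hx j]
  simp only [Pi.zero_apply, zero_mul, zero_add]

/-- Theorem I, elementary form, for arbitrary pairs which are gauge equivalent on `O ∋ ∂M`. -/
theorem elemI_of (h9 : EYM.O.I9_statement.{u}) {n N : ℕ} [NeZero n] (hn : 2 ≤ n) {M : Type u}
    [TopologicalSpace M] [ChartedSpace (EuclideanHalfSpace n) M] [IsManifold (𝓡∂ n) ∞ M]
    [T2Space M] [CompactSpace M] [ConnectedSpace M] (Z : B.At n M) (hZ : Z = at_ n M)
    (Γ O₀ : Set M) (hO₀ : IsOpen O₀) (hΓ : Γ = O₀ ∩ bd Z) (P Q : B.Pair Z N)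
    (hd : B.SameData Γ P Q) (O V : Set M) (hO : IsOpen O) (hOc : IsPreconnected O)
    (hOΓ : (O ∩ Γ).Nonempty) (hbO : bd Z ⊆ O) (U : M → Matrix (Fin N) (Fin N) ℂ)
    (hU : GaugeBy U O Γ P.A Q.A Z) (hg : ∀ x ∈ O, Q.g x = P.g x) (hV : IsOpen V)
    (hOV : Oᶜ ⊆ V) (U₁ : M → Matrix (Fin N) (Fin N) ℂ) (hU₁ : GaugeBy U₁ V ∅ 0 P.A Z) :
    ∃ U', GaugeBy U' univ Γ P.A Q.A Z ∧ ∀ x ∈ O, U' x = U x := by
  subst hZ
  have hK : Oᶜᶜ = O := compl_compl O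
  obtain ⟨U', h1, h2⟩ := (holes h9 hn (at_ n M) rfl Γ O₀ hO₀ hΓ (hOΓ.mono inter_subset_right) P Q
    hd Oᶜ V hO.isClosed_compl (by
      rw [← disjoint_iff_inter_eq_empty]
      exact (disjoint_compl_left_iff_subset.2 hbO)) (by rw [hK]; exact hOc) U
    (by rw [hK]; exact hU) (fun x hx => hg x (not_not.1 hx)) hV hOV).2 (pureOn_of hU₁)
  exact ⟨U', h1, fun x hx => h2 x (fun h => h hx)⟩

/-- `elemI_of`, from the last block. -/
theorem elemI_of_IR (hR : EYM.O.IR_statement.{u}) {n N : ℕ} [NeZero n] (hn : 2 ≤ n) {M : Type u}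
    [TopologicalSpace M] [ChartedSpace (EuclideanHalfSpace n) M] [IsManifold (𝓡∂ n) ∞ M]
    [T2Space M] [CompactSpace M] [ConnectedSpace M] (Z : B.At n M) (hZ : Z = at_ n M)
    (Γ O₀ : Set M) (hO₀ : IsOpen O₀) (hΓ : Γ = O₀ ∩ bd Z) (P Q : B.Pair Z N)
    (hd : B.SameData Γ P Q) (O V : Set M) (hO : IsOpen O) (hOc : IsPreconnected O)
    (hOΓ : (O ∩ Γ).Nonempty) (hbO : bd Z ⊆ O) (U : M → Matrix (Fin N) (Fin N) ℂ)
    (hU : GaugeBy U O Γ P.A Q.A Z) (hg : ∀ x ∈ O, Q.g x = P.g x) (hV : IsOpen V)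
    (hOV : Oᶜ ⊆ V) (U₁ : M → Matrix (Fin N) (Fin N) ℂ) (hU₁ : GaugeBy U₁ V ∅ 0 P.A Z) :
    ∃ U', GaugeBy U' univ Γ P.A Q.A Z ∧ ∀ x ∈ O, U' x = U x :=
  elemI_of (EYM.O.i9 EYM.O.iT hR EYM.O.iE EYM.O.iS EYM.O.lA) hn Z hZ Γ O₀ hO₀ hΓ P Q hd O V hO
    hOc hOΓ hbO U hU hg hV hOV U₁ hU₁

end Vale.Agent.P088.B5
end
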