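import Vale.Agent.P088.H5.I.Spec
import Vale.Agent.P088.H5.M9

/-!
# P088, Theorem I: from sections to the gauge transformation
-/

set_option linter.all false

open Bundle Manifold MeasureTheory Set Filter Topology
open scoped ContDiff Matrix

noncomputable section

namespace Vale.Agent.P088.EYM.O

open Vale.Agent.P088 Vale.Agent.P088.EYM

universe u

section

variable {n N : ℕ} [NeZero n] {M : Type u} [TopologicalSpace M]
  [ChartedSpace (EuclideanHalfSpace n) M] [IsManifold (𝓡∂ n) ∞ M]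
  {F₁ : Type*} [NormedAddCommGroup F₁] [NormedSpace ℝ F₁]

/-- A map with vanishing differential on an open set is locally constant there. -/
theorem loc_const_of_dmap {f : M → F₁} {W : Set M} (hW : IsOpen W)
    (hf : ContMDiffOn (𝓡∂ n) 𝓘(ℝ, F₁) ∞ f W)
    (h : ∀ x ∈ W, ∀ X : TangentSpace (𝓡∂ n) x, dmap (𝓡∂ n) f x X = 0) :
    ∀ x ∈ W, ∀ᶠ y in 𝓝 x, f y = f x := by
  have hrel : ∀ p : M, RelOpen (tg n p) := S.brEq_relOpen (n := n)
  intro x hx
  have hD : RelOpen (tgW n W x) := tgW_rel hrel hW x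
  set c := xc n x x with hc
  have hcD : c ∈ tgW n W x := ⟨mem_extChartAt_target x, by
    rw [mem_preimage, hc, (xc n x).left_inv (mem_extChartAt_source x)]
    exact hx⟩
  obtain ⟨r, hr, hrD⟩ : ∃ r > 0, HB c r ⊆ tgW n W x := by
    obtain ⟨O, hO, hOe⟩ := hD
    rw [hOe] at hcD
    obtain ⟨r, hr, hrO⟩ := Metric.isOpen_iff.1 hO c hcD.1
    exact ⟨r, hr, by rw [hOe]; exact inter_subset_inter_left _ hrO⟩
  have h1 : ContDiffOn ℝ ∞ (lu (𝓡∂ n) x f) (HB c r) := by
    rw [← contMDiffOn_iff_contDiffOn]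
    exact hf.comp ((contMDiffOn_extChartAt_symm x).mono fun y hy => (hrD hy).1)
      fun y hy => (hrD hy).2
  have hcr : c ∈ HB c r := ⟨Metric.mem_ball_self hr, hD.subset hcD⟩
  have h2 : ∀ y ∈ HB c r, fderivWithin ℝ (lu (𝓡∂ n) x f) (HB c r) y = 0 := by
    intro y hy
    have hyt : y ∈ (extChartAt (𝓡∂ n) x).target := (hrD hy).1
    have hm : (extChartAt (𝓡∂ n) x).symm y ∈ (extChartAt (𝓡∂ n) x).source :=
      (extChartAt (𝓡∂ n) x).map_target hyt
    have hmI : (extChartAt (𝓡∂ n) x).symm y ∈ W := (hrD hy).2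
    have hfm : MDifferentiableAt (𝓡∂ n) 𝓘(ℝ, F₁) f ((extChartAt (𝓡∂ n) x).symm y) :=
      (hf.contMDiffAt (hW.mem_nhds hmI)).mdifferentiableAt (by simp)
    rw [(relOpen_HB c r).fderivWithin_eq hy]
    ext v
    have h3 := dmap_cc (𝓡∂ n) hm hfm v
    rw [(extChartAt (𝓡∂ n) x).right_inv hyt, cChart_range] at h3
    rw [← h3]
    exact h _ hmI _
  have h4 : ∀ y ∈ HB c r, lu (𝓡∂ n) x f y = lu (𝓡∂ n) x f c := fun y hy =>
    (APoin_convex_HB c r).is_const_of_fderivWithin_eq_zero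
      (h1.differentiableOn (by simp)) h2 hy hcr
  have h5 : ∀ᶠ y in 𝓝 x, xc n x y ∈ Metric.ball c r :=
    (continuousAt_extChartAt (I := 𝓡∂ n) x).eventually (Metric.ball_mem_nhds c hr)
  filter_upwards [h5, (isOpen_extChartAt_source (I := 𝓡∂ n) x).mem_nhds
    (mem_extChartAt_source x)] with y hy hys
  have h6 := h4 (xc n x y) ⟨hy, (hrel x).subset ((xc n x).map_source hys)⟩
  unfold lu at h6
  rwa [(xc n x).left_inv hys, hc, (xc n x).left_inv (mem_extChartAt_source x)] at h6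

/-- Evaluation at a vector, real linear. -/
def evL (v : Fib N) : EndF N →L[ℝ] Fib N :=
  (ContinuousLinearMap.apply ℂ (Fib N) v).restrictScalars ℝ

theorem evL_apply (v : Fib N) (T : EndF N) : evL v T = T v := rfl

theorem colL_frame (E : EndF N) : (∑ a, colL a (E (EuclideanSpace.single a (1 : ℂ)))) = E := by
  have h : ∀ a : Fin N, colL a (E (EuclideanSpace.single a (1 : ℂ))) =
      E * colL a (EuclideanSpace.single a (1 : ℂ)) := fun a => colL_comp a E _
  simp only [h, ← Finset.mul_sum, colL_one, mul_one]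

theorem alg_key {R : Type*} [Ring R] [StarRing R] {a b p q d d' : R} (hd : d = -(p * a))
    (hd' : d' = -(q * b)) (hq : star q = -q) (e1 : star a * a = 1) (e2 : b * star b = 1) :
    q = b * star a * (p * (a * star b)) + b * star a * (d * star b + a * star d') := by
  subst hd hd'
  have h4 : star (-(q * b)) = star b * q := by
    rw [star_neg, star_mul, hq, mul_neg, neg_neg]
  rw [h4, neg_mul, mul_add, mul_neg]
  simp only [mul_assoc]
  rw [add_neg_cancel_left, ← mul_assoc (star a) a, e1, one_mul, ← mul_assoc b (star b), e2,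
    one_mul]

/-- `adjoint` of the derivative of a parallel frame. -/
theorem dmap_adj {E : M → EndF N} {x : M}
    (hE : MDifferentiableAt (𝓡∂ n) 𝓘(ℝ, EndF N) E x) (X : TangentSpace (𝓡∂ n) x) :
    dmap (𝓡∂ n) (fun y => adjRE (E y)) x X = adjRE (dmap (𝓡∂ n) E x X) :=
  dmap_clm adjRE hE X

end

/-- Theorem I for frames: the gauge transformation. -/
theorem i9_frame (h9 : I9_statement.{u}) (n N : ℕ) [NeZero n] (M : Type u) [TopologicalSpace M]
    [ChartedSpace (EuclideanHalfSpace n) M] [IsManifold (𝓡∂ n) ∞ M] [T2Space M] [CompactSpace M]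
    [ConnectedSpace M] [MeasurableSpace M] [BorelSpace M] (P Q : One n N M) (Γ O V : Set M)
    (E : M → EndF N) (hn : 2 ≤ n) (hΓ : RelBd n Γ) (hS : SameD P Q Γ) (hO : IsOpen O)
    (hOp : IsPreconnected O) (hOΓ : (O ∩ Γ).Nonempty) (hbd : (𝓡∂ n).boundary M ⊆ O)
    (hag : AgreeOn P Q O) (hV : IsOpen V) (hOV : Oᶜ ⊆ V)
    (hE : ContMDiffOn (𝓡∂ n) 𝓘(ℝ, EndF N) ∞ E V) (hEu : ∀ x ∈ V, E x ∈ unitary (EndF N))
    (hEp : ∀ x ∈ V, ∀ X : TangentSpace (𝓡∂ n) x,
      dmap (𝓡∂ n) E x X + P.A.form x X * E x = 0) :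
    ∃ U : M → EndF N, IsSmoothUnitary (𝓡∂ n) U ∧ (∀ x ∈ O, U x = 1) ∧
      ∀ (x : M) (X : TangentSpace (𝓡∂ n) x), Q.A.form x X =
        ContinuousLinearMap.adjoint (U x) ∘L P.A.form x X ∘L U x +
          ContinuousLinearMap.adjoint (U x) ∘L dmap (𝓡∂ n) U x X := by
  classical
  have hEd : ∀ x ∈ V, MDifferentiableAt (𝓡∂ n) 𝓘(ℝ, EndF N) E x := fun x hx =>
    (hE.contMDiffAt (hV.mem_nhds hx)).mdifferentiableAt (by simp)
  -- the columns
  have hcol : ∀ a : Fin N, ∃ e' : M → Fib N, ContMDiffOn (𝓡∂ n) 𝓘(ℝ, Fib N) ∞ e' V ∧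
      (∀ x ∈ V, ∀ X : TangentSpace (𝓡∂ n) x, cov Q.A e' x X = 0) ∧
      ∀ x ∈ O, e' x = E x (EuclideanSpace.single a (1 : ℂ)) := by
    intro a
    refine h9 n N M P Q Γ O V (fun x => evL (EuclideanSpace.single a (1 : ℂ)) (E x)) hn hΓ hS hO
      hOp hOΓ hbd hag hV hOV
      ((evL (EuclideanSpace.single a (1 : ℂ))).contMDiff.comp_contMDiffOn hE) fun x hx X => ?_
    unfold cov
    rw [dmap_clm (evL (EuclideanSpace.single a (1 : ℂ))) (hEd x hx) X, evL_apply]
    have h1 := DFunLike.congr_fun (hEp x hx X) (EuclideanSpace.single a (1 : ℂ))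
    exact h1
  choose e' he's he'p he'O using hcol
  set E' : M → EndF N := fun x => ∑ a, colL a (e' a x) with hE'def
  have hE's : ContMDiffOn (𝓡∂ n) 𝓘(ℝ, EndF N) ∞ E' V := by
    have h : ∀ s : Finset (Fin N), ContMDiffOn (𝓡∂ n) 𝓘(ℝ, EndF N) ∞
        (fun x => ∑ a ∈ s, colL a (e' a x)) V := by
      intro s
      induction s using Finset.induction_on with
      | empty => simpa using contMDiffOn_const
      | insert a s ha ih =>
        simp_rw [Finset.sum_insert ha]
        exact ((colL a).contMDiff.comp_contMDiffOn (he's a)).add ih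
    exact h Finset.univ
  have hE'O : ∀ x ∈ O, E' x = E x := by
    intro x hx
    simp only [hE'def]
    rw [← colL_frame (E x)]
    exact Finset.sum_congr rfl fun a _ => by rw [he'O a x hx]
  have hE'd : ∀ x ∈ V, MDifferentiableAt (𝓡∂ n) 𝓘(ℝ, EndF N) E' x := fun x hx =>
    (hE's.contMDiffAt (hV.mem_nhds hx)).mdifferentiableAt (by simp)
  have hE'p : ∀ x ∈ V, ∀ X : TangentSpace (𝓡∂ n) x,
      dmap (𝓡∂ n) E' x X + Q.A.form x X * E' x = 0 := by
    intro x hx X
    have hed : ∀ a, MDifferentiableAt (𝓡∂ n) 𝓘(ℝ, Fib N) (e' a) x := fun a =>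
      ((he's a).contMDiffAt (hV.mem_nhds hx)).mdifferentiableAt (by simp)
    have h1 : dmap (𝓡∂ n) E' x X = ∑ a, colL a (dmap (𝓡∂ n) (e' a) x X) := by
      rw [hE'def, (dmap_sum (f := fun a y => colL a (e' a y)) Finset.univ (fun a =>
        ((colL a).differentiable.mdifferentiable (e' a x)).comp x (hed a)) X).2]
      exact Finset.sum_congr rfl fun a _ => dmap_clm (colL a) (hed a) X
    rw [h1]
    simp only [hE'def, Finset.mul_sum, ← Finset.sum_add_distrib]
    refine Finset.sum_eq_zero fun a _ => ?_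
    rw [← colL_comp, ← map_add]
    have h2 := he'p a x hx X
    unfold cov at h2
    rw [h2, map_zero]
  -- the new frame is unitary
  set F : M → EndF N := fun y => mulL (adjRE (E' y)) (E' y) with hF
  have hFs : ContMDiffOn (𝓡∂ n) 𝓘(ℝ, EndF N) ∞ F V :=
    adjmul_smooth.contMDiff.comp_contMDiffOn hE's
  have hFc := loc_const_of_dmap hV hFs
    (fun x hx X => adjmul_par (hE'd x hx) (Q.A.skew x X) (hE'p x hx X))
  have hFO : ∀ x ∈ V, x ∈ O → F x = 1 := by
    intro x hxV hxO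
    simp only [hF]
    rw [hE'O x hxO, mulL_apply, adjRE_apply]
    exact (Unitary.mem_iff.1 (hEu x hxV)).1
  have hF1 : ∀ x ∈ V, F x = 1 := by
    set T : Set M := O ∪ {x | x ∈ V ∧ F x = 1} with hT
    have hTo : IsOpen T := by
      refine hO.union ?_
      rw [isOpen_iff_mem_nhds]
      rintro x ⟨hx, hx1⟩
      filter_upwards [hFc x hx, hV.mem_nhds hx] with y hy hyV
      exact ⟨hyV, hy.trans hx1⟩
    have hTc : IsClosed T := by
      rw [← isOpen_compl_iff, isOpen_iff_mem_nhds]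
      intro x hx
      have hxO : x ∉ O := fun h => hx (Or.inl h)
      have hxV : x ∈ V := hOV hxO
      have hx1 : F x ≠ 1 := fun h => hx (Or.inr ⟨hxV, h⟩)
      filter_upwards [hFc x hxV, hV.mem_nhds hxV] with y hy hyV
      have hy1 : F y ≠ 1 := by rw [hy]; exact hx1
      rintro (h | h)
      · exact hy1 (hFO y hyV h)
      · exact hy1 h.2
    have hTn : T.Nonempty := hOΓ.mono fun y hy => Or.inl hy.1
    have hTu : T = univ := IsClopen.eq_univ ⟨hTc, hTo⟩ hTn
    intro x hx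
    have : x ∈ T := hTu ▸ mem_univ x
    rcases this with h | h
    · exact hFO x hx h
    · exact h.2
  have hE'u : ∀ x ∈ V, E' x ∈ unitary (EndF N) := fun x hx => unit_of_left (hF1 x hx)
  -- the gauge transformation
  set U : M → EndF N := fun x => if x ∈ O then 1 else mulL (E x) (adjRE (E' x)) with hU
  have hUO : ∀ x ∈ O, U x = 1 := fun x hx => if_pos hx
  have hUV : ∀ x ∈ V, U x = mulL (E x) (adjRE (E' x)) := by
    intro x hx
    simp only [hU]
    split_ifs with hxO
    · rw [hE'O x hxO, mulL_apply, adjRE_apply]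
      exact (Unitary.mem_iff.1 (hEu x hx)).2.symm
    · rfl
  have hUeO : ∀ x ∈ O, U =ᶠ[𝓝 x] fun _ => (1 : EndF N) := fun x hx => by
    filter_upwards [hO.mem_nhds hx] with y hy using hUO y hy
  have hUeV : ∀ x ∈ V, U =ᶠ[𝓝 x] fun y => mulL (E y) (adjRE (E' y)) := fun x hx => by
    filter_upwards [hV.mem_nhds hx] with y hy using hUV y hy
  have hUs : ContMDiff (𝓡∂ n) 𝓘(ℝ, EndF N) ∞ U := by
    intro x
    by_cases hx : x ∈ O
    · exact contMDiffAt_const.congr_of_eventuallyEq (hUeO x hx)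
    · have hxV := hOV hx
      have h1 : ContMDiffOn (𝓡∂ n) 𝓘(ℝ, EndF N) ∞ (fun y => mulL (E y) (adjRE (E' y))) V := by
        have h2 : ContMDiffOn (𝓡∂ n) 𝓘(ℝ, EndF N) ∞ (fun y => adjRE (E' y)) V :=
          adjRE.contMDiff.comp_contMDiffOn hE's
        exact isBB_mul.contDiff.contMDiff.comp_contMDiffOn (hE.prodMk_space h2)
      exact (h1.contMDiffAt (hV.mem_nhds hxV)).congr_of_eventuallyEq (hUeV x hxV)
  have hUu : ∀ x, U x ∈ unitary (EndF N) := by
    intro x
    by_cases hx : x ∈ O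
    · rw [hUO x hx]
      exact one_mem _
    · have hxV := hOV hx
      rw [hUV x hxV]
      exact mul_mem (hEu x hxV) (Unitary.star_mem (hE'u x hxV))
  refine ⟨U, ⟨hUs, hUu⟩, hUO, fun x X => ?_⟩
  show Q.A.form x X = ContinuousLinearMap.adjoint (U x) * (P.A.form x X * U x) +
    ContinuousLinearMap.adjoint (U x) * dmap (𝓡∂ n) U x X
  by_cases hx : x ∈ O
  · have h1 : dmap (𝓡∂ n) U x X = 0 := by
      have h2 : dmap (𝓡∂ n) U x = 0 := by
        unfold dmap
        rw [(hUeO x hx).mfderiv_eq]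
        exact mfderiv_const
      rw [h2]
      rfl
    rw [h1, hUO x hx, mul_zero, add_zero, mul_one]
    have h3 : ContinuousLinearMap.adjoint (1 : EndF N) = 1 := star_one (EndF N)
    rw [h3, one_mul]
    exact (hag.conn x hx X).symm
  · have hxV := hOV hx
    have hadj : MDifferentiableAt (𝓡∂ n) 𝓘(ℝ, EndF N) (fun y => adjRE (E' y)) x :=
      (adjRE.differentiable.mdifferentiable (E' x)).comp x (hE'd x hxV)
    have h1 : dmap (𝓡∂ n) U x X = dmap (𝓡∂ n) E x X * star (E' x) +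
        E x * star (dmap (𝓡∂ n) E' x X) := by
      have h2 : dmap (𝓡∂ n) U x X = dmap (𝓡∂ n) (fun y => mulL (E y) (adjRE (E' y))) x X :=
        DFunLike.congr_fun (hUeV x hxV).mfderiv_eq X
      rw [h2, dmap_bilin mulL (hEd x hxV) hadj X, dmap_adj (hE'd x hxV) X]
      rfl
    have hp := eq_neg_of_add_eq_zero_left (hEp x hxV X)
    have hq := eq_neg_of_add_eq_zero_left (hE'p x hxV X)
    have hskew : star (Q.A.form x X) = -Q.A.form x X := Q.A.skew x X
    have hUx : U x = E x * star (E' x) := hUV x hxV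
    have e1 : star (E x) * E x = 1 := (Unitary.mem_iff.1 (hEu x hxV)).1
    have e2 : E' x * star (E' x) = 1 := (Unitary.mem_iff.1 (hE'u x hxV)).2
    have hsa : ContinuousLinearMap.adjoint (U x) = E' x * star (E x) := by
      rw [← ContinuousLinearMap.star_eq_adjoint, hUx, star_mul, star_star]
    rw [hsa, h1, hUx]
    exact alg_key (R := EndF N) hp hq hskew e1 e2

end Vale.Agent.P088.EYM.O

end
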