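import Vale.Agent.P088.H5.I.Fr275
import Vale.Agent.P088.H5.BrL124

/-!
# P088, Theorem I: pairs which agree off a compact set up to a change of gauge
-/

set_option linter.all false

open Bundle Manifold MeasureTheory Set Filter Topology
open scoped ContDiff Matrix

noncomputable section

namespace Vale.Agent.P088.EYM.O

open Vale.Agent.P088 Vale.Agent.P088.EYM

universe u

theorem alg_b1 {R : Type*} [Ring R] {v v' dv dv' p E dE : R} (h1 : v * v' = 1) (h2 : v' * v = 1)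
    (h3 : v * dv' + dv * v' = 0) (h4 : dE = -(p * E)) :
    dv' * E + v' * dE + (v' * (p * v) + v' * dv) * (v' * E) = 0 := by
  have h5 : dv' = -(v' * dv * v') := by
    have h6 := congrArg (fun t => v' * t) h3
    simp only [mul_add, mul_zero] at h6
    rw [← mul_assoc, h2, one_mul, ← mul_assoc] at h6
    exact eq_neg_of_add_eq_zero_left h6
  have h7 : (v' * (p * v) + v' * dv) * (v' * E) = v' * p * (v * v') * E + v' * dv * v' * E := by
    noncomm_ring
  rw [h7, h1, h5, h4, mul_one, neg_mul, mul_neg, ← mul_assoc v' p E]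
  abel

theorem alg_b2 {R : Type*} [Ring R] {v v' dv p u u' du : R} (h2 : v' * v = 1) :
    u' * ((v' * (p * v) + v' * dv) * u) + u' * du =
      (u' * v') * (p * (v * u)) + (u' * v') * (dv * u + v * du) := by
  have h : (u' * v') * (p * (v * u)) + (u' * v') * (dv * u + v * du) =
      u' * ((v' * (p * v) + v' * dv) * u) + u' * (v' * v) * du := by
    noncomm_ring
  rw [h, h2, mul_one]

/-- Application of endomorphisms. -/
def appL {N : ℕ} : EndF N →L[ℝ] Fib N →L[ℝ] Fib N :=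
  (MG590.isBB_app (N := N)).toContinuousLinearMap

theorem appL_apply {N : ℕ} (T : EndF N) (v : Fib N) : appL T v = T v := rfl

section

variable {n N : ℕ} [NeZero n] {M : Type u} [TopologicalSpace M]
  [ChartedSpace (EuclideanHalfSpace n) M] [IsManifold (𝓡∂ n) ∞ M] [T2Space M] [CompactSpace M]
  [ConnectedSpace M] [MeasurableSpace M] [BorelSpace M]

/-- `U^{-1} e` is parallel for the transformed connection. -/
theorem cov_gsL {B A : Connection (𝓡∂ n) N M} {U : M → EndF N} (hU : IsSmoothUnitary (𝓡∂ n) U)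
    {x : M} {X : TangentSpace (𝓡∂ n) x} (hA : A.form x X =
      ContinuousLinearMap.adjoint (U x) ∘L B.form x X ∘L U x +
        ContinuousLinearMap.adjoint (U x) ∘L dmap (𝓡∂ n) U x X) {e : M → Fib N}
    (he : MDifferentiableAt (𝓡∂ n) 𝓘(ℝ, Fib N) e x) (hc : cov B e x X = 0) :
    cov A (fun y => appL (adjRE (U y)) (e y)) x X = 0 := by
  have hUd : MDifferentiableAt (𝓡∂ n) 𝓘(ℝ, EndF N) U x := hU.smooth.mdifferentiableAt (by simp)
  have hadj : MDifferentiableAt (𝓡∂ n) 𝓘(ℝ, EndF N) (fun y => adjRE (U y)) x :=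
    (adjRE.differentiable.mdifferentiable (U x)).comp x hUd
  have h1 := dmap_bilin appL hadj he X
  rw [dmap_adj hUd X] at h1
  unfold cov at hc ⊢
  rw [h1]
  simp only [appL_apply, adjRE_apply]
  have h2 : dmap (𝓡∂ n) e x X = -(B.form x X (e x)) := eq_neg_of_add_eq_zero_left hc
  have h3 : U x * ContinuousLinearMap.adjoint (dmap (𝓡∂ n) U x X) +
      dmap (𝓡∂ n) U x X * ContinuousLinearMap.adjoint (U x) = 0 := d_uni_right hU x X
  have h4 : U x * ContinuousLinearMap.adjoint (U x) = 1 := uni_right hU x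
  have h5 : ContinuousLinearMap.adjoint (U x) * U x = 1 := (Unitary.mem_iff.1 (hU.unitary x)).1
  have key := alg_b1 (R := EndF N) (E := 1) (dE := -(B.form x X * 1)) h4 h5 h3 rfl
  have h6 := congrArg (fun T : EndF N => T (e x)) key
  rw [h2, hA]
  have h7 : ContinuousLinearMap.adjoint (dmap (𝓡∂ n) U x X) (e x) +
      ContinuousLinearMap.adjoint (U x) (-(B.form x X (e x))) +
      (ContinuousLinearMap.adjoint (U x) (B.form x X (U x (ContinuousLinearMap.adjoint (U x)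
        (e x)))) + ContinuousLinearMap.adjoint (U x) (dmap (𝓡∂ n) U x X
          (ContinuousLinearMap.adjoint (U x) (e x)))) = 0 := h6
  exact h7

end

section

variable (h9 : I9_statement.{u}) (n N : ℕ) [NeZero n] (M : Type u) [TopologicalSpace M]
    [ChartedSpace (EuclideanHalfSpace n) M] [IsManifold (𝓡∂ n) ∞ M] [T2Space M] [CompactSpace M]
    [ConnectedSpace M] [MeasurableSpace M] [BorelSpace M] (P Q : One n N M) (Γ O V : Set M)
    (V₀ : M → EndF N) (hV₀ : IsSmoothUnitary (𝓡∂ n) V₀) (hV₀1 : ∀ x ∈ Γ, V₀ x = 1)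
    (hn : 2 ≤ n) (hΓ : RelBd n Γ) (hS : SameD P Q Γ) (hO : IsOpen O)
    (hOp : IsPreconnected O) (hOΓ : (O ∩ Γ).Nonempty) (hbd : (𝓡∂ n).boundary M ⊆ O)
    (hconn : ∀ x ∈ O, ∀ X : TangentSpace (𝓡∂ n) x, Q.A.form x X =
      ContinuousLinearMap.adjoint (V₀ x) ∘L P.A.form x X ∘L V₀ x +
        ContinuousLinearMap.adjoint (V₀ x) ∘L dmap (𝓡∂ n) V₀ x X)
    (hmet : ∀ x ∈ O, ∀ v w : TangentSpace (𝓡∂ n) x, Q.g.inner x v w = P.g.inner x v w)
    (hV : IsOpen V) (hOV : Oᶜ ⊆ V)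

include h9 hV₀ hV₀1 hn hΓ hS hO hOp hOΓ hbd hconn hmet hV hOV

theorem i9_sec (e : M → Fib N)
    (he : ContMDiffOn (𝓡∂ n) 𝓘(ℝ, Fib N) ∞ e V)
    (hep : ∀ x ∈ V, ∀ X : TangentSpace (𝓡∂ n) x, cov P.A e x X = 0) :
    ∃ e' : M → Fib N, ContMDiffOn (𝓡∂ n) 𝓘(ℝ, Fib N) ∞ e' V ∧
      (∀ x ∈ V, ∀ X : TangentSpace (𝓡∂ n) x, cov Q.A e' x X = 0) ∧
      ∀ x ∈ O, V₀ x (e' x) = e x := by
  have h3 := (mg_closed n N M P Q Γ (gConn P.A hV₀) V₀ hV₀ hV₀1 (gConn_form _ hV₀)).1.1 hS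
  obtain ⟨e', h4, h5, h6⟩ := h9 n N M (wA P (gConn P.A hV₀)) Q Γ O V
    (fun y => appL (adjRE (V₀ y)) (e y)) hn hΓ h3 hO hOp hOΓ hbd
    ⟨fun x hx X => (hconn x hx X).symm, hmet⟩ hV hOV
    ((MG590.isBB_app (N := N)).contDiff.contMDiff.comp_contMDiffOn
      ((adjRE.contMDiff.comp hV₀.smooth).contMDiffOn.prodMk_space he))
    (fun x hx X => cov_gsL hV₀ (gConn_form _ hV₀ x X)
      ((he.contMDiffAt (hV.mem_nhds hx)).mdifferentiableAt (by simp)) (hep x hx X))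
  refine ⟨e', h4, h5, fun x hx => ?_⟩
  rw [h6 x hx]
  exact congrArg (fun T : EndF N => T (e x)) (uni_right hV₀ x)

theorem i9_uni (E : M → EndF N)
    (hE : ContMDiffOn (𝓡∂ n) 𝓘(ℝ, EndF N) ∞ E V) (hEu : ∀ x ∈ V, E x ∈ unitary (EndF N))
    (hEp : ∀ x ∈ V, ∀ X : TangentSpace (𝓡∂ n) x,
      dmap (𝓡∂ n) E x X + P.A.form x X * E x = 0) :
    ∃ U : M → EndF N, IsSmoothUnitary (𝓡∂ n) U ∧ (∀ x ∈ O, U x = V₀ x) ∧
      ∀ (x : M) (X : TangentSpace (𝓡∂ n) x), Q.A.form x X =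
        ContinuousLinearMap.adjoint (U x) ∘L P.A.form x X ∘L U x +
          ContinuousLinearMap.adjoint (U x) ∘L dmap (𝓡∂ n) U x X := by
  have h3 := (mg_closed n N M P Q Γ (gConn P.A hV₀) V₀ hV₀ hV₀1 (gConn_form _ hV₀)).1.1 hS
  obtain ⟨U₁, k1, k2, k3⟩ := i9_frame h9 n N M (wA P (gConn P.A hV₀)) Q Γ O V
    (fun y => mulL (adjRE (V₀ y)) (E y)) hn hΓ h3 hO hOp hOΓ hbd
    ⟨fun x hx X => (hconn x hx X).symm, hmet⟩ hV hOV
    (isBB_mul.contDiff.contMDiff.comp_contMDiffOn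
      ((adjRE.contMDiff.comp hV₀.smooth).contMDiffOn.prodMk_space hE))
    (fun x hx => mul_mem (Unitary.star_mem (hV₀.unitary x)) (hEu x hx))
    (fun x hx X => by
      have hEd : MDifferentiableAt (𝓡∂ n) 𝓘(ℝ, EndF N) E x :=
        (hE.contMDiffAt (hV.mem_nhds hx)).mdifferentiableAt (by simp)
      have hUd : MDifferentiableAt (𝓡∂ n) 𝓘(ℝ, EndF N) V₀ x :=
        hV₀.smooth.mdifferentiableAt (by simp)
      have hadj : MDifferentiableAt (𝓡∂ n) 𝓘(ℝ, EndF N) (fun y => adjRE (V₀ y)) x :=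
        (adjRE.differentiable.mdifferentiable (V₀ x)).comp x hUd
      have h1 := dmap_bilin mulL hadj hEd X
      rw [dmap_adj hUd X] at h1
      rw [h1]
      exact alg_b1 (R := EndF N) (uni_right hV₀ x) (Unitary.mem_iff.1 (hV₀.unitary x)).1
        (d_uni_right hV₀ x X) (eq_neg_of_add_eq_zero_left (hEp x hx X)))
  refine ⟨fun y => mulL (V₀ y) (U₁ y), ⟨isBB_mul.contDiff.contMDiff.comp
    (hV₀.smooth.prodMk_space k1.smooth), fun x => mul_mem (hV₀.unitary x) (k1.unitary x)⟩,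
    fun x hx => ?_, fun x X => ?_⟩
  · show V₀ x * U₁ x = V₀ x
    rw [k2 x hx, mul_one]
  · have hUd : MDifferentiableAt (𝓡∂ n) 𝓘(ℝ, EndF N) V₀ x :=
      hV₀.smooth.mdifferentiableAt (by simp)
    have hUd₁ : MDifferentiableAt (𝓡∂ n) 𝓘(ℝ, EndF N) U₁ x :=
      k1.smooth.mdifferentiableAt (by simp)
    have h1 := dmap_bilin mulL hUd hUd₁ X
    rw [h1, k3 x X]
    have h4 : ContinuousLinearMap.adjoint (mulL (V₀ x) (U₁ x)) =
        ContinuousLinearMap.adjoint (U₁ x) * ContinuousLinearMap.adjoint (V₀ x) :=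
      adj_mulE _ _
    rw [h4]
    exact alg_b2 (R := EndF N) (Unitary.mem_iff.1 (hV₀.unitary x)).1

end

end Vale.Agent.P088.EYM.O

end
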