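import Vale.Agent.P088.H5.I.Q1I435
import Vale.Agent.P088.H5.Fin820

/-!
# P088: arbitrary smooth pairs, one manifold, all clauses
-/

open Bundle Manifold MeasureTheory Set Filter
open scoped ContDiff Matrix Topology ENNReal

noncomputable section

set_option linter.all false

namespace Vale.Agent.P088.B7

open Vale.Agent.P088 Vale.Agent.P088.B Vale.Agent.P088.B2

open Vale.Agent.P088.B5 (ParOn PureOn)

universe u

/-- Question 1 for a transform with gauge equivalent connections and piecewise ordered metrics on a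
dense set. -/
theorem q1_dense {n N : ℕ} [NeZero n] (hn : 3 ≤ n) (hN : 1 ≤ N) {M : Type u}
    [TopologicalSpace M] [ChartedSpace (EuclideanHalfSpace n) M] [IsManifold (𝓡∂ n) ∞ M]
    [T2Space M] [CompactSpace M] [ConnectedSpace M] (Z : B.At n M) (hZ : Z = at_ n M)
    (Γ O : Set M) (hO : IsOpen O) (hΓ : Γ = O ∩ bd Z) (hne : Γ.Nonempty) (P₀ P Q : B.Pair Z N)
    (hS : B.SameData Γ P₀ Q) (hR : Related Γ P₀ P)
    (h : (∃ W, closure W = univ ∧ PwLe W Γ P Q) ∧ ∃ U, GaugeBy U univ Γ P.A Q.A Z) :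
    Related Γ P₀ Q := by
  obtain ⟨⟨W, hWd, hWo, hWc, hpW⟩, U, hU⟩ := h
  have hS' : B.SameData Γ P Q := B.same_related Z hZ hO hΓ hne hR hS
  have h3 := (B5.smooth_local hn hN Z hZ Γ O hO hΓ P Q hS' W hWo hWc U
    ⟨hU.1, hU.2.1, fun x hx => hU.2.2.1 x hx.2, fun x _ => hU.2.2.2 x (mem_univ x)⟩ hpW).1
  subst hZ
  exact B5.related_of hR hU (funext fun x => h3 x (by rw [hWd]; exact mem_univ x))

/-- One manifold. -/
theorem sp2 {n N : ℕ} [NeZero n] (hn : 3 ≤ n) (hN : 1 ≤ N) {M : Type u}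
    [TopologicalSpace M] [ChartedSpace (EuclideanHalfSpace n) M] [IsManifold (𝓡∂ n) ∞ M]
    [T2Space M] [CompactSpace M] [ConnectedSpace M] (Z : B.At n M) (hZ : Z = at_ n M)
    (Γ O : Set M) (hO : IsOpen O) (hΓ : Γ = O ∩ bd Z) (hne : Γ.Nonempty) (P Q : B.Pair Z N)
    (hS : B.SameData Γ P Q) :
    (∀ P', Related Γ P P' →
      ((∃ W, closure W = univ ∧ PwLe W Γ P' Q) ∧ (∃ U, GaugeBy U univ Γ P'.A Q.A Z) ∨
        Le univ P' Q ∧ (∃ U, GaugeBy U univ Γ 0 P'.A Z) → Related Γ P Q) ∧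
      ∀ K V W U₀, IsClosed K → K ∩ bd Z = ∅ → IsPreconnected Kᶜ → IsOpen V → K ⊆ V → W ⊆ Kᶜ →
        Kᶜ ⊆ closure W → PwLe W Γ P' Q → GaugeBy U₀ Kᶜ Γ P'.A Q.A Z →
        (∀ e, ParOn V P' e → ∃ e', ParOn V Q e' ∧ ∀ x ∉ K, e x = U₀ x *ᵥ e' x) ∧
        (PureOn V P'.A Z → (∃ U, GaugeBy U univ Γ P'.A Q.A Z ∧ ∀ x ∉ K, U x = U₀ x) ∧
          ((∃ W, closure W = univ ∧ PwLe W Γ P' Q) → Related Γ P Q))) ∧
    (∀ W U, PwLe W Γ P Q → GaugeBy U W (W ∩ Γ) P.A Q.A Z →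
      (∀ x ∈ closure W, Q.g x = P.g x) ∧
      ∀ f u u', Data Z (W ∩ Γ) f → Harm P f u → Harm Q f u' → ∀ x ∈ W, u x = U x *ᵥ u' x) ∧
    (Γ = bd Z ∨ Le univ P Q → (∀ e, Par P e → ∃ e', Par Q e' ∧ ∀ x ∈ Γ, e' x = e x) ∧
      ((∃ U, GaugeBy U univ Γ 0 P.A Z) → ∃ U, GaugeBy U univ Γ 0 Q.A Z)) ∧
    (Le univ P Q → (∃ e, Par P e ∧ e ≠ 0) → Q.g = P.g) := by
  refine ⟨fun P' hR => ⟨?_, fun K V W U₀ hK hKb hKc hV hKV hW hd hp hU =>
    (holesP_closed hn hN Z hZ Γ O hO hΓ hne P P' Q hS hR K V W hK hKb hKc hV hKV hW hd hp U₀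
      hU).2⟩, fun W U hp hU =>
    B5.smooth_local hn hN Z hZ Γ O hO hΓ P Q hS W hp.1 hp.2.1 U hU hp.2.2,
    B5.smooth_par hn hN Z hZ Γ O hO hΓ hne P Q hS⟩
  rintro (h | h)
  · exact q1_dense hn hN Z hZ Γ O hO hΓ hne P P' Q hS hR h
  · exact B5.q1_of hn hN Z hZ Γ O hO hΓ hne P P' Q hS hR (Or.inr h)

end Vale.Agent.P088.B7

end
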