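import Vale.Agent.P088.H5.Spec3
import Vale.Agent.P088.H5.L2_849

/-!
# P088, Theorem I: pairs which agree off a compact set in the interior
-/

set_option linter.all false

open Bundle Manifold MeasureTheory Set Filter Topology
open scoped ContDiff Matrix

noncomputable section

namespace Vale.Agent.P088.EYM.O

open Vale.Agent.P088 Vale.Agent.P088.EYM

universe u

/-- `A₁ = A₂` and `g₁ = g₂` on `O`. -/
structure AgreeOn {n N : ℕ} [NeZero n] {M : Type u} [TopologicalSpace M]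
    [ChartedSpace (EuclideanHalfSpace n) M] [IsManifold (𝓡∂ n) ∞ M] [MeasurableSpace M]
    (P Q : One n N M) (O : Set M) : Prop where
  conn : ∀ x ∈ O, ∀ X : TangentSpace (𝓡∂ n) x, P.A.form x X = Q.A.form x X
  met : ∀ x ∈ O, ∀ v w : TangentSpace (𝓡∂ n) x, Q.g.inner x v w = P.g.inner x v w

/-- (IT) topology: a connected open set with closure in `O` which contains a compact set. -/
def IT_statement : Prop :=
  ∀ (n : ℕ) [NeZero n] (M : Type u) [TopologicalSpace M] [ChartedSpace (EuclideanHalfSpace n) M]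
    [IsManifold (𝓡∂ n) ∞ M] [T2Space M] [CompactSpace M] (O S : Set M) (p : M), IsOpen O →
    IsPreconnected O → IsCompact S → S ⊆ O → p ∈ O →
    ∃ O' : Set M, IsOpen O' ∧ IsPreconnected O' ∧ closure O' ⊆ O ∧ S ⊆ O' ∧ p ∈ O'

/-- (IL) `L T` is bounded. -/
def IL_statement : Prop :=
  ∀ (n N : ℕ) [NeZero n] (M : Type u) [TopologicalSpace M] [ChartedSpace (EuclideanHalfSpace n) M]
    [IsManifold (𝓡∂ n) ∞ M] [T2Space M] [CompactSpace M] [ConnectedSpace M] [MeasurableSpace M]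
    [BorelSpace M] (P : One n N M) (T : M → Fib N), SmS n T →
    ∃ C : ℝ, 0 ≤ C ∧ ∀ F : M → Fib N, SmS n F → (∀ x ∈ (𝓡∂ n).boundary M, F x = 0) →
      ‖P.E F T‖ ^ 2 ≤ C * ∫ x, ‖F x‖ ^ 2 ∂P.μ

/-- (IR) Runge approximation of `T` on the complement of `O'`, if `T` is parallel off a compact
subset `S` of `O' ∩ M°`. -/
def IR_statement : Prop :=
  ∀ (n N : ℕ) [NeZero n] (M : Type u) [TopologicalSpace M] [ChartedSpace (EuclideanHalfSpace n) M]
    [IsManifold (𝓡∂ n) ∞ M] [T2Space M] [CompactSpace M] [ConnectedSpace M] [MeasurableSpace M]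
    [BorelSpace M] (P : One n N M) (Γ O' S : Set M) (T : M → Fib N), RelBd n Γ → P.HasSol Γ →
    IsOpen O' → IsPreconnected O' → (O' ∩ Γ).Nonempty → SmS n T →
    (∀ x ∈ (𝓡∂ n).boundary M, T x = 0) → IsCompact S → S ⊆ O' ∩ Mi n M →
    (∀ x ∉ S, ∀ X : TangentSpace (𝓡∂ n) x, cov P.A T x X = 0) →
    ∀ ε > 0, ∃ u ∈ P.U Γ, (FK P O'ᶜ (T - u) (T - u)).re ≤ ε

/-- (IE) the energies of corresponding solutions on the set where the pairs differ. -/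
def IE_statement : Prop :=
  ∀ (n N : ℕ) [NeZero n] (M : Type u) [TopologicalSpace M] [ChartedSpace (EuclideanHalfSpace n) M]
    [IsManifold (𝓡∂ n) ∞ M] [T2Space M] [CompactSpace M] [ConnectedSpace M] [MeasurableSpace M]
    [BorelSpace M] (P Q : One n N M) (Γ O : Set M) (ξ : M → ℝ), RelBd n Γ → IsOpen O →
    IsPreconnected O → (O ∩ Γ).Nonempty → SameD P Q Γ → AgreeOn P Q O → SmR n ξ →
    tsupport ξ ⊆ Mi n M → (∀ x ∉ O, ∀ᶠ y in 𝓝 x, ξ y = 1) → ∀ u ∈ PP P Q Γ,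
    ∫ x, ξ x * (pairing P.g P.A u.1 u.1 x).re ∂P.μ = ∫ x, ξ x * (pairing Q.g Q.A u.2 u.2 x).re ∂Q.μ

/-- (IS) the limit of solutions with energies tending to zero is a parallel section. -/
def IS_statement : Prop :=
  ∀ (n N : ℕ) [NeZero n] (M : Type u) [TopologicalSpace M] [ChartedSpace (EuclideanHalfSpace n) M]
    [IsManifold (𝓡∂ n) ∞ M] [T2Space M] [CompactSpace M] [ConnectedSpace M] [MeasurableSpace M]
    [BorelSpace M] (Q : One n N M) (Γ W : Set M) (v : ℕ → M → Fib N), 2 ≤ n → IsOpen W →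
    W ⊆ Mi n M → (∀ k, v k ∈ Q.U Γ) →
    (∀ ε > 0, ∃ k₀, ∀ k ≥ k₀, ∀ l ≥ k₀, ∫ x in W, ‖v k x - v l x‖ ^ 2 ∂Q.μ ≤ ε) →
    Tendsto (fun k => ∫ x in W, (pairing Q.g Q.A (v k) (v k) x).re ∂Q.μ) atTop (𝓝 0) →
    ∃ s : M → Fib N, ContMDiffOn (𝓡∂ n) 𝓘(ℝ, Fib N) ∞ s W ∧
      (∀ x ∈ W, ∀ X : TangentSpace (𝓡∂ n) x, cov Q.A s x X = 0) ∧
      ∀ x ∈ W, Tendsto (fun k => v k x) atTop (𝓝 (s x))

/-- (I9) Theorem I, abstract form. -/
def I9_statement : Prop :=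
  ∀ (n N : ℕ) [NeZero n] (M : Type u) [TopologicalSpace M] [ChartedSpace (EuclideanHalfSpace n) M]
    [IsManifold (𝓡∂ n) ∞ M] [T2Space M] [CompactSpace M] [ConnectedSpace M] [MeasurableSpace M]
    [BorelSpace M] (P Q : One n N M) (Γ O V : Set M) (e : M → Fib N), 2 ≤ n → RelBd n Γ →
    SameD P Q Γ → IsOpen O → IsPreconnected O → (O ∩ Γ).Nonempty → (𝓡∂ n).boundary M ⊆ O →
    AgreeOn P Q O → IsOpen V → Oᶜ ⊆ V → ContMDiffOn (𝓡∂ n) 𝓘(ℝ, Fib N) ∞ e V →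
    (∀ x ∈ V, ∀ X : TangentSpace (𝓡∂ n) x, cov P.A e x X = 0) →
    ∃ e' : M → Fib N, ContMDiffOn (𝓡∂ n) 𝓘(ℝ, Fib N) ∞ e' V ∧
      (∀ x ∈ V, ∀ X : TangentSpace (𝓡∂ n) x, cov Q.A e' x X = 0) ∧ ∀ x ∈ O, e' x = e x

end Vale.Agent.P088.EYM.O

end
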